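import Mathlib

/-!
# Analytic part of the ellipse case of Crouzeix's inequality

For `0 ≤ ρ < 1` and an operator `A` whose numerical range lies strictly inside the ellipse
`{(1+ρ) u + i (1-ρ) v : u² + v² ≤ 1}` we study the operator function
`Q(w) = (1 - ρ w²) (1 + ρ w² - w A)⁻¹` on the closed unit disc.
-/

open Complex Polynomial MeasureTheory Metric
open scoped Real InnerProductSpace ComplexConjugate

namespace Vale.Agent.Lib.P123E

noncomputable section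

variable {H : Type*} [NormedAddCommGroup H] [InnerProductSpace ℂ H]

/-- The operator pencil `1 + ρ w² - w A`. -/
def Pw (ρ : ℝ) (A : H →L[ℂ] H) (w : ℂ) : H →L[ℂ] H :=
  ((1 : ℂ) + ρ * w ^ 2) • (1 : H →L[ℂ] H) - w • A

/-- The operator function `Q(w) = (1 - ρ w²) (1 + ρ w² - w A)⁻¹`. -/
def Qw (ρ : ℝ) (A : H →L[ℂ] H) (w : ℂ) : H →L[ℂ] H :=
  ((1 : ℂ) - ρ * w ^ 2) • Ring.inverse (Pw ρ A w)

/-- Strict numerical range condition: `⟨A x, x⟩` lies in all the half planes bounded by the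
tangent lines of the ellipse scaled by `s`. -/
def Inside (ρ s : ℝ) (A : H →L[ℂ] H) : Prop :=
  ∀ u : ℂ, ‖u‖ = 1 → ∀ x : H,
    ((u - ρ * conj u) * ⟪x, A x⟫_ℂ).re ≤ s * (1 - ρ ^ 2) * ‖x‖ ^ 2

theorem core_bound {ρ s : ℝ} (h0 : 0 ≤ ρ) (h1 : ρ < 1) {A : H →L[ℂ] H} (hA : Inside ρ s A)
    {u : ℂ} (hu : ‖u‖ = 1) {r : ℝ} (hr0 : 0 < r) (hr1 : r ≤ 1) (x : H) :
    r * ((1 - s) * (1 - ρ ^ 2)) * ‖x‖ ^ 2 ≤
      (((1 : ℂ) - ρ * (conj u) ^ 2) *
        (((1 : ℂ) + ρ * (r * u) ^ 2) * ((‖x‖ ^ 2 : ℝ) : ℂ) - (r * u) * ⟪x, A x⟫_ℂ)).re := by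
  set a : ℂ := ⟪x, A x⟫_ℂ with ha
  set X : ℝ := ‖x‖ ^ 2 with hX
  have hX0 : 0 ≤ X := by positivity
  set v : ℂ := conj u with hv
  have huv : u * v = 1 := by
    rw [hv, Complex.mul_conj, Complex.normSq_eq_norm_sq, hu]; simp
  have key : ((1 : ℂ) - ρ * v ^ 2) * (((1 : ℂ) + ρ * (r * u) ^ 2) * (X : ℂ) - (r * u) * a)
      = (((1 : ℂ) + ρ * r ^ 2 * u ^ 2 - ρ * v ^ 2 - ρ ^ 2 * r ^ 2)) * (X : ℂ)
        - r * ((u - ρ * v) * a) := by
    linear_combination ((-(ρ : ℂ) ^ 2 * r ^ 2 * X * (u * v + 1) + r * ρ * v * a)) * huv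
  rw [key]
  have hA' := hA u hu x
  have hd : (u ^ 2).re ≤ 1 := by
    have := Complex.re_le_norm (u ^ 2)
    rwa [norm_pow, hu, one_pow] at this
  have hvre : (v ^ 2).re = (u ^ 2).re := by
    rw [hv, ← map_pow, Complex.conj_re]
  have e1 : ((((1 : ℂ) + ρ * r ^ 2 * u ^ 2 - ρ * v ^ 2 - ρ ^ 2 * r ^ 2)) * (X : ℂ)).re
      = (1 + ρ * r ^ 2 * (u ^ 2).re - ρ * (u ^ 2).re - ρ ^ 2 * r ^ 2) * X := by
    rw [Complex.re_mul_ofReal]
    congr 1
    have h1 : ((ρ : ℂ) * r ^ 2 * u ^ 2) = ((ρ * r ^ 2 : ℝ) : ℂ) * u ^ 2 := by push_cast; ring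
    have h2 : ((ρ : ℂ) * v ^ 2) = ((ρ : ℝ) : ℂ) * v ^ 2 := rfl
    have h3 : ((ρ : ℂ) ^ 2 * r ^ 2) = ((ρ ^ 2 * r ^ 2 : ℝ) : ℂ) := by push_cast; ring
    rw [h1, h2, h3]
    simp only [Complex.sub_re, Complex.add_re, Complex.one_re, Complex.re_ofReal_mul,
      Complex.ofReal_re, hvre]
  have e2 : (((r : ℂ) * ((u - ρ * v) * a))).re = r * ((u - ρ * v) * a).re := by
    rw [Complex.re_ofReal_mul]
  rw [Complex.sub_re, e1, e2]
  have h3 : (1 - ρ) * (1 - ρ * r) * (1 - r) ≥ 0 := by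
    have : 0 ≤ 1 - ρ * r := by nlinarith
    have : 0 ≤ 1 - ρ := by linarith
    have : 0 ≤ 1 - r := by linarith
    positivity
  have h4 : ρ * (r ^ 2 - 1) * (u ^ 2).re ≥ ρ * (r ^ 2 - 1) * 1 := by
    have : ρ * (r ^ 2 - 1) ≤ 0 := by
      have : r ^ 2 ≤ 1 := by nlinarith
      nlinarith
    nlinarith
  have h5 : r * ((u - ρ * v) * a).re ≤ r * (s * (1 - ρ ^ 2) * X) :=
    mul_le_mul_of_nonneg_left hA' hr0.le
  have h6 : (1 + ρ * r ^ 2 * (u ^ 2).re - ρ * (u ^ 2).re - ρ ^ 2 * r ^ 2) ≥ r * (1 - ρ ^ 2) := by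
    nlinarith
  have h7 : (1 + ρ * r ^ 2 * (u ^ 2).re - ρ * (u ^ 2).re - ρ ^ 2 * r ^ 2) * X
      ≥ r * (1 - ρ ^ 2) * X := mul_le_mul_of_nonneg_right h6 hX0
  nlinarith

theorem inner_Pw (ρ : ℝ) (A : H →L[ℂ] H) (w : ℂ) (x : H) :
    ⟪Pw ρ A w x, x⟫_ℂ
      = conj (((1 : ℂ) + ρ * w ^ 2) * ((‖x‖ ^ 2 : ℝ) : ℂ) - w * ⟪x, A x⟫_ℂ) := by
  have hxx : ⟪x, x⟫_ℂ = ((‖x‖ ^ 2 : ℝ) : ℂ) := by
    rw [inner_self_eq_norm_sq_to_K]; push_cast; rfl
  have hAx : ⟪A x, x⟫_ℂ = conj ⟪x, A x⟫_ℂ := (inner_conj_symm _ _).symm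
  simp only [Pw, _root_.sub_apply, _root_.smul_apply,
    one_apply_eq_self, inner_sub_left, inner_smul_left, hxx, hAx, map_sub, map_mul,
    Complex.conj_ofReal]

variable [CompleteSpace H]

theorem isUnit_Pw {ρ s : ℝ} (h0 : 0 ≤ ρ) (h1 : ρ < 1) (hs : s < 1) {A : H →L[ℂ] H}
    (hA : Inside ρ s A) {w : ℂ} (hw : ‖w‖ ≤ 1) : IsUnit (Pw ρ A w) := by
  by_cases hw0 : w = 0
  · subst hw0
    have : Pw ρ A 0 = 1 := by simp [Pw]
    rw [this]; exact isUnit_one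
  set r : ℝ := ‖w‖ with hr
  have hr0 : 0 < r := norm_pos_iff.mpr hw0
  set u : ℂ := w / r with hu
  have hrC : (r : ℂ) ≠ 0 := by exact_mod_cast hr0.ne'
  have hru : (r : ℂ) * u = w := by
    rw [hu]; exact mul_div_cancel₀ w hrC
  have hun : ‖u‖ = 1 := by
    rw [hu, norm_div, Complex.norm_real, Real.norm_of_nonneg hr0.le, div_self hr0.ne']
  have hρ2 : 0 < 1 - ρ ^ 2 := by nlinarith
  have hδ : 0 < (1 - s) * (1 - ρ ^ 2) := mul_pos (by linarith) hρ2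
  have hc : 0 < r * ((1 - s) * (1 - ρ ^ 2)) / 2 := by positivity
  apply ContinuousLinearMap.isUnit_of_forall_le_norm_inner_map _
    (c := ⟨r * ((1 - s) * (1 - ρ ^ 2)) / 2, hc.le⟩) (by exact_mod_cast hc)
  intro x
  have hb := core_bound h0 h1 hA hun hr0 hw x
  rw [hru] at hb
  rw [inner_Pw, Complex.norm_conj]
  set Z : ℂ := ((1 : ℂ) + ρ * w ^ 2) * ((‖x‖ ^ 2 : ℝ) : ℂ) - w * ⟪x, A x⟫_ℂ with hZ
  have h2 : (((1 : ℂ) - ρ * (conj u) ^ 2) * Z).re ≤ 2 * ‖Z‖ := by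
    refine (Complex.re_le_norm _).trans ?_
    rw [norm_mul]
    refine mul_le_mul_of_nonneg_right ?_ (norm_nonneg _)
    calc ‖(1 : ℂ) - ρ * (conj u) ^ 2‖ ≤ ‖(1 : ℂ)‖ + ‖(ρ : ℂ) * (conj u) ^ 2‖ := norm_sub_le _ _
      _ = 1 + ρ := by
        rw [norm_one, norm_mul, norm_pow, Complex.norm_conj, hun, Complex.norm_real,
          Real.norm_of_nonneg h0]; simp
      _ ≤ 2 := by linarith
  have : ‖x‖ ^ 2 * (r * ((1 - s) * (1 - ρ ^ 2)) / 2) ≤ ‖Z‖ := by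
    have : r * ((1 - s) * (1 - ρ ^ 2)) * ‖x‖ ^ 2 ≤ 2 * ‖Z‖ := hb.trans h2
    linarith
  exact this

theorem differentiableAt_Qw {ρ s : ℝ} (h0 : 0 ≤ ρ) (h1 : ρ < 1) (hs : s < 1) {A : H →L[ℂ] H}
    (hA : Inside ρ s A) {w : ℂ} (hw : ‖w‖ ≤ 1) : DifferentiableAt ℂ (Qw ρ A) w := by
  have hP : DifferentiableAt ℂ (Pw ρ A) w := by
    unfold Pw
    fun_prop
  have hinv : DifferentiableAt ℂ (fun w => Ring.inverse (Pw ρ A w)) w :=
    (differentiableAt_inverse (𝕜 := ℂ) (isUnit_Pw h0 h1 hs hA hw)).comp w hP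
  unfold Qw
  exact (by fun_prop : DifferentiableAt ℂ (fun w : ℂ => (1 : ℂ) - ρ * w ^ 2) w).smul hinv

omit [CompleteSpace H] in
theorem Qw_zero (ρ : ℝ) (A : H →L[ℂ] H) : Qw ρ A 0 = 1 := by
  simp [Qw, Pw]

/-- The scalar functions `w ↦ ⟨y, Q(w) x⟩`. -/
def vv (ρ : ℝ) (A : H →L[ℂ] H) (x y : H) (w : ℂ) : ℂ := ⟪y, Qw ρ A w x⟫_ℂ

theorem differentiableAt_vv {ρ s : ℝ} (h0 : 0 ≤ ρ) (h1 : ρ < 1) (hs : s < 1) {A : H →L[ℂ] H}
    (hA : Inside ρ s A) (x y : H) {w : ℂ} (hw : ‖w‖ ≤ 1) : DifferentiableAt ℂ (vv ρ A x y) w := by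
  have hL : vv ρ A x y = ((innerSL ℂ y).comp (ContinuousLinearMap.apply ℂ H x)) ∘ Qw ρ A := by
    funext w; simp [vv]
  rw [hL]
  exact ((innerSL ℂ y).comp (ContinuousLinearMap.apply ℂ H x)).differentiableAt.comp w
    (differentiableAt_Qw h0 h1 hs hA hw)

omit [CompleteSpace H] in
theorem vv_zero (ρ : ℝ) (A : H →L[ℂ] H) (x y : H) : vv ρ A x y 0 = ⟪y, x⟫_ℂ := by
  simp [vv, Qw_zero]

/-- On the unit circle, `⟨x, Q(w) x⟩` has positive real part. -/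
theorem re_vv_nonneg {ρ s : ℝ} (h0 : 0 ≤ ρ) (h1 : ρ < 1) (hs : s < 1) {A : H →L[ℂ] H}
    (hA : Inside ρ s A) {w : ℂ} (hw : ‖w‖ = 1) (x : H) : 0 ≤ (vv ρ A x x w).re := by
  have hU := isUnit_Pw h0 h1 hs hA hw.le
  set R := Ring.inverse (Pw ρ A w) with hR
  set v : H := R x with hv
  have hx : Pw ρ A w v = x := by
    have : Pw ρ A w * R = 1 := Ring.mul_inverse_cancel _ hU
    have := congrArg (fun T : H →L[ℂ] H => T x) this
    simpa [hv] using this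
  have hb := core_bound h0 h1 hA hw zero_lt_one le_rfl v
  have e : vv ρ A x x w = ((1 : ℂ) - ρ * w ^ 2) *
      conj (((1 : ℂ) + ρ * w ^ 2) * ((‖v‖ ^ 2 : ℝ) : ℂ) - w * ⟪v, A v⟫_ℂ) := by
    rw [← inner_Pw, hx]
    simp [vv, Qw, ← hR, ← hv]
  rw [e]
  have e2 : (((1 : ℂ) - ρ * w ^ 2) *
      conj (((1 : ℂ) + ρ * w ^ 2) * ((‖v‖ ^ 2 : ℝ) : ℂ) - w * ⟪v, A v⟫_ℂ)).re
      = (((1 : ℂ) - ρ * (conj w) ^ 2) *
        (((1 : ℂ) + ρ * w ^ 2) * ((‖v‖ ^ 2 : ℝ) : ℂ) - w * ⟪v, A v⟫_ℂ)).re := by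
    rw [← Complex.conj_re, map_mul, Complex.conj_conj]
    simp [map_sub]
  rw [e2]
  have hb' : 1 * ((1 - s) * (1 - ρ ^ 2)) * ‖v‖ ^ 2 ≤
      (((1 : ℂ) - ρ * (conj w) ^ 2) *
        (((1 : ℂ) + ρ * w ^ 2) * ((‖v‖ ^ 2 : ℝ) : ℂ) - w * ⟪v, A v⟫_ℂ)).re := by
    simpa using hb
  have hρ2 : 0 < 1 - ρ ^ 2 := by nlinarith
  have : 0 ≤ 1 * ((1 - s) * (1 - ρ ^ 2)) * ‖v‖ ^ 2 := by
    have : 0 < 1 - s := by linarith
    positivity
  linarith


/-! ### The mean over the circle -/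

/-- The mean of a function over a period. -/
def avg (g : ℝ → ℂ) : ℂ := ((2 * π : ℝ)⁻¹) • ∫ θ in (0 : ℝ)..2 * π, g θ

/-- Points of the unit circle. -/
def ww (θ : ℝ) : ℂ := circleMap 0 1 θ

theorem norm_ww (θ : ℝ) : ‖ww θ‖ = 1 := by simp [ww, norm_circleMap_zero]

theorem continuous_ww : Continuous ww := continuous_circleMap 0 1

theorem ww_ne (θ : ℝ) : ww θ ≠ 0 := by
  intro h
  have := norm_ww θ
  rw [h] at this
  simp at this

theorem avg_add {f g : ℝ → ℂ} (hf : Continuous f) (hg : Continuous g) :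
    avg (fun θ => f θ + g θ) = avg f + avg g := by
  unfold avg
  rw [intervalIntegral.integral_add (hf.intervalIntegrable _ _) (hg.intervalIntegrable _ _),
    smul_add]

theorem avg_sub {f g : ℝ → ℂ} (hf : Continuous f) (hg : Continuous g) :
    avg (fun θ => f θ - g θ) = avg f - avg g := by
  unfold avg
  rw [intervalIntegral.integral_sub (hf.intervalIntegrable _ _) (hg.intervalIntegrable _ _),
    smul_sub]

theorem avg_const_mul (c : ℂ) (f : ℝ → ℂ) : avg (fun θ => c * f θ) = c * avg f := by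
  unfold avg
  rw [intervalIntegral.integral_const_mul]
  simp only [Complex.real_smul]
  ring

theorem avg_mul_const (c : ℂ) (f : ℝ → ℂ) : avg (fun θ => f θ * c) = avg f * c := by
  unfold avg
  rw [intervalIntegral.integral_mul_const]
  simp only [Complex.real_smul]
  ring

theorem avg_const (c : ℂ) : avg (fun _ => c) = c := by
  unfold avg
  rw [intervalIntegral.integral_const]
  have hpi : (2 * π : ℝ) ≠ 0 := by positivity
  simp only [sub_zero, smul_smul]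
  rw [inv_mul_cancel₀ hpi, one_smul]

theorem avg_congr {f g : ℝ → ℂ} (h : ∀ θ, f θ = g θ) : avg f = avg g := by
  have : f = g := funext h
  rw [this]

/-- Mean value property on the unit circle. -/
theorem avg_mean_value {f : ℂ → ℂ} (hf : ∀ w : ℂ, ‖w‖ ≤ 1 → DifferentiableAt ℂ f w) :
    avg (fun θ => f (ww θ)) = f 0 := by
  have hd : DiffContOnCl ℂ f (ball (0 : ℂ) |(1 : ℝ)|) := by
    apply DifferentiableOn.diffContOnCl
    intro w hw
    rw [closure_ball _ (by simp)] at hw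
    have : ‖w‖ ≤ 1 := by simpa using hw
    exact (hf w this).differentiableWithinAt
  have := hd.circleAverage
  simpa [Real.circleAverage_def, avg, ww] using this

/-- Continuity of the boundary values. -/
theorem continuous_comp_ww {f : ℂ → ℂ} (hf : ∀ w : ℂ, ‖w‖ ≤ 1 → DifferentiableAt ℂ f w) :
    Continuous (fun θ => f (ww θ)) := by
  rw [continuous_iff_continuousAt]
  intro θ
  exact ContinuousAt.comp (f := ww) (g := f) (hf _ (norm_ww θ).le).continuousAt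
    continuous_ww.continuousAt

/-! ### The ellipse -/

/-- The boundary curve of the ellipse. -/
def sig (ρ : ℝ) (θ : ℝ) : ℂ := (ww θ)⁻¹ + ρ * ww θ

/-- The outward normal of the ellipse. -/
def nu (ρ : ℝ) (θ : ℝ) : ℂ := (ww θ)⁻¹ - ρ * ww θ

theorem continuous_sig (ρ : ℝ) : Continuous (sig ρ) := by
  unfold sig
  exact (continuous_ww.inv₀ ww_ne).add (continuous_const.mul continuous_ww)

theorem continuous_nu (ρ : ℝ) : Continuous (nu ρ) := by
  unfold nu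
  exact (continuous_ww.inv₀ ww_ne).sub (continuous_const.mul continuous_ww)

theorem hasDerivAt_ww (θ : ℝ) : HasDerivAt ww (ww θ * I) θ :=
  hasDerivAt_circleMap 0 1 θ

theorem hasDerivAt_sig (ρ : ℝ) (θ : ℝ) : HasDerivAt (sig ρ) (-I * nu ρ θ) θ := by
  have h1 : HasDerivAt (fun θ => (ww θ)⁻¹) (-(ww θ * I) / ww θ ^ 2) θ :=
    (hasDerivAt_ww θ).fun_inv (ww_ne θ)
  have h2 := (hasDerivAt_ww θ).const_mul (ρ : ℂ)
  have h3 := h1.add h2
  have e : -(ww θ * I) / ww θ ^ 2 + ρ * (ww θ * I) = -I * nu ρ θ := by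
    have hw := ww_ne θ
    simp only [nu]
    field_simp
    ring
  rw [e] at h3
  exact h3

/-- Exactness: the mean of `σⁿ ν` vanishes. -/
theorem avg_pow_sig_nu (ρ : ℝ) (n : ℕ) : avg (fun θ => sig ρ θ ^ n * nu ρ θ) = 0 := by
  have hD : ∀ θ ∈ Set.uIcc (0 : ℝ) (2 * π), HasDerivAt (fun θ => I * sig ρ θ ^ (n + 1) / (n + 1))
      (sig ρ θ ^ n * nu ρ θ) θ := by
    intro θ _
    have := ((hasDerivAt_sig ρ θ).pow (n + 1)).const_mul I
    have h2 := this.div_const ((n : ℂ) + 1)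
    have hn : ((n : ℂ) + 1) ≠ 0 := by exact_mod_cast Nat.succ_ne_zero n
    have e : I * (((n + 1 : ℕ) : ℂ) * sig ρ θ ^ (n + 1 - 1) * (-I * nu ρ θ)) / ((n : ℂ) + 1)
        = sig ρ θ ^ n * nu ρ θ := by
      rw [div_eq_iff hn]
      simp only [add_tsub_cancel_right]
      push_cast
      linear_combination (-((n : ℂ) + 1) * sig ρ θ ^ n * nu ρ θ) * I_mul_I
    rw [e] at h2
    exact h2
  have hc : IntervalIntegrable (fun θ => sig ρ θ ^ n * nu ρ θ) volume 0 (2 * π) :=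
    (((continuous_sig ρ).pow n).mul (continuous_nu ρ)).intervalIntegrable _ _
  unfold avg
  rw [intervalIntegral.integral_eq_sub_of_hasDerivAt hD hc]
  have hper : sig ρ (2 * π) = sig ρ 0 := by
    simp [sig, ww, circleMap]
  rw [hper]
  simp

section Cauchy

omit [CompleteSpace H] in
/-- Resolvent identity on the circle: `σ Q = A Q + ν`. -/
theorem sig_smul_Qw {ρ : ℝ} {A : H →L[ℂ] H} {θ : ℝ} (hU : IsUnit (Pw ρ A (ww θ))) :
    sig ρ θ • Qw ρ A (ww θ) = A * Qw ρ A (ww θ) + nu ρ θ • (1 : H →L[ℂ] H) := by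
  have hw := ww_ne θ
  set w := ww θ with hwdef
  set R := Ring.inverse (Pw ρ A w) with hR
  have h : Pw ρ A w * R = 1 := Ring.mul_inverse_cancel _ hU
  have h2 : ((1 : ℂ) + ρ * w ^ 2) • R - w • (A * R) = 1 := by
    rw [← h]
    simp [Pw, sub_mul]
  have h3 : (sig ρ θ) • R - A * R = w⁻¹ • (1 : H →L[ℂ] H) := by
    have := congrArg (fun T : H →L[ℂ] H => w⁻¹ • T) h2
    simp only [smul_sub, smul_smul] at this
    rw [inv_mul_cancel₀ hw, one_smul] at this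
    rw [← this]
    congr 2
    simp only [sig, ← hwdef]
    field_simp
  simp only [Qw, ← hR]
  have h4 : nu ρ θ = ((1 : ℂ) - ρ * w ^ 2) * w⁻¹ := by
    simp only [nu, ← hwdef]
    field_simp
  rw [h4, mul_smul, ← h3, smul_sub, mul_smul_comm]
  simp only [smul_smul]
  rw [mul_comm (sig ρ θ)]
  abel

/-- Cauchy formula for monomials. -/
theorem avg_sig_pow {ρ s : ℝ} (h0 : 0 ≤ ρ) (h1 : ρ < 1) (hs : s < 1) {A : H →L[ℂ] H}
    (hA : Inside ρ s A) (x : H) (n : ℕ) (y : H) :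
    avg (fun θ => sig ρ θ ^ n * vv ρ A x y (ww θ)) = ⟪y, (A ^ n) x⟫_ℂ := by
  induction n generalizing y with
  | zero =>
    simp only [pow_zero, one_mul]
    rw [avg_mean_value (fun w hw => differentiableAt_vv h0 h1 hs hA x y hw), vv_zero]
    simp
  | succ n ih =>
    have hrel : ∀ θ, sig ρ θ ^ (n + 1) * vv ρ A x y (ww θ)
        = sig ρ θ ^ n * vv ρ A x (ContinuousLinearMap.adjoint A y) (ww θ)
          + (sig ρ θ ^ n * nu ρ θ) * ⟪y, x⟫_ℂ := by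
      intro θ
      have hU := isUnit_Pw h0 h1 hs hA (norm_ww θ).le
      have hS := sig_smul_Qw (θ := θ) hU
      have hv : sig ρ θ • (Qw ρ A (ww θ) x) = A (Qw ρ A (ww θ) x) + nu ρ θ • x := by
        have := congrArg (fun T : H →L[ℂ] H => T x) hS
        simpa using this
      have hS' := congrArg (fun z : H => ⟪y, z⟫_ℂ) hv
      simp only [inner_smul_right, inner_add_right] at hS'
      have hadj : ⟪y, A (Qw ρ A (ww θ) x)⟫_ℂ
          = ⟪ContinuousLinearMap.adjoint A y, Qw ρ A (ww θ) x⟫_ℂ :=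
        (ContinuousLinearMap.adjoint_inner_left A _ _).symm
      rw [hadj] at hS'
      simp only [vv]
      rw [pow_succ, mul_assoc, hS']
      ring
    rw [avg_congr hrel]
    have hc1 : Continuous (fun θ => sig ρ θ ^ n *
        vv ρ A x (ContinuousLinearMap.adjoint A y) (ww θ)) :=
      ((continuous_sig ρ).pow n).mul
        (continuous_comp_ww (fun w hw => differentiableAt_vv h0 h1 hs hA x _ hw))
    have hc2 : Continuous (fun θ => (sig ρ θ ^ n * nu ρ θ) * ⟪y, x⟫_ℂ) :=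
      (((continuous_sig ρ).pow n).mul (continuous_nu ρ)).mul continuous_const
    rw [avg_add hc1 hc2, ih, avg_mul_const, avg_pow_sig_nu, zero_mul, add_zero,
      ContinuousLinearMap.adjoint_inner_left, pow_succ']
    rfl

/-- Cauchy formula for polynomials. -/
theorem avg_poly {ρ s : ℝ} (h0 : 0 ≤ ρ) (h1 : ρ < 1) (hs : s < 1) {A : H →L[ℂ] H}
    (hA : Inside ρ s A) (x y : H) (q : ℂ[X]) :
    avg (fun θ => q.eval (sig ρ θ) * vv ρ A x y (ww θ)) = ⟪y, (aeval A q) x⟫_ℂ := by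
  induction q using Polynomial.induction_on' with
  | add p q hp hq =>
    have hc : ∀ r : ℂ[X], Continuous (fun θ => r.eval (sig ρ θ) * vv ρ A x y (ww θ)) := fun r =>
      (r.continuous.comp (continuous_sig ρ)).mul
        (continuous_comp_ww (fun w hw => differentiableAt_vv h0 h1 hs hA x y hw))
    have : ∀ θ, (p + q).eval (sig ρ θ) * vv ρ A x y (ww θ)
        = p.eval (sig ρ θ) * vv ρ A x y (ww θ) + q.eval (sig ρ θ) * vv ρ A x y (ww θ) := by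
      intro θ; rw [eval_add]; ring
    rw [avg_congr this, avg_add (hc p) (hc q), hp, hq, map_add, _root_.add_apply, inner_add_right]
  | monomial n a =>
    have : ∀ θ, (monomial n a).eval (sig ρ θ) * vv ρ A x y (ww θ)
        = a * (sig ρ θ ^ n * vv ρ A x y (ww θ)) := by
      intro θ; rw [eval_monomial]; ring
    rw [avg_congr this, avg_const_mul, avg_sig_pow h0 h1 hs hA, aeval_monomial]
    simp [Algebra.algebraMap_eq_smul_one]

end Cauchy

end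

end Vale.Agent.Lib.P123E
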