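import Vale.Agent.Lib.P123E.Main

/-!
# Crouzeix's inequality for operators whose numerical range lies in an ellipse
-/

open Complex Polynomial MeasureTheory Metric
open scoped Real InnerProductSpace ComplexConjugate

namespace Vale.Agent.Lib.P123E

noncomputable section

section FiniteDim

variable {H : Type*} [NormedAddCommGroup H] [InnerProductSpace ℂ H] [FiniteDimensional ℂ H]

/-- Existence of a singular pair in finite dimension and the resulting bound. -/
theorem main_fd {ρ s : ℝ} (h0 : 0 ≤ ρ) (h1 : ρ < 1) (hs : s < 1) {A : H →L[ℂ] H}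
    (hA : Inside ρ s A) (f : ℂ[X]) {F : ℝ} (hF : ∀ θ, ‖f.eval (sig ρ θ)‖ ≤ F) :
    ‖aeval A f‖ ≤ 2 * F := by
  have : CompleteSpace H := FiniteDimensional.complete ℂ H
  have : ProperSpace H := FiniteDimensional.proper ℂ H
  have hF0 : 0 ≤ F := (norm_nonneg _).trans (hF 0)
  set T : H →L[ℂ] H := aeval A f with hT
  by_cases hT0 : ‖T‖ = 0
  · rw [hT0]; positivity
  have hTne : T ≠ 0 := by
    intro h; apply hT0; rw [h, norm_zero]
  have : Nontrivial H := by
    by_contra hn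
    rw [not_nontrivial_iff_subsingleton] at hn
    apply hTne
    ext x
    exact Subsingleton.elim _ _
  have hsph : (sphere (0 : H) 1).Nonempty := (NormedSpace.sphere_nonempty (E := H)).mpr zero_le_one
  obtain ⟨x, hxs, hmax⟩ := (isCompact_sphere (0 : H) 1).exists_isMaxOn hsph
    (T.continuous.norm.continuousOn)
  have hx : ‖x‖ = 1 := by simpa using hxs
  have hmax' : ∀ z, ‖z‖ = 1 → ‖T z‖ ≤ ‖T x‖ := fun z hz => by
    have : z ∈ sphere (0 : H) 1 := by simpa using hz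
    exact hmax this
  have hle : ‖T‖ ≤ ‖T x‖ := ContinuousLinearMap.opNorm_le_of_unit_norm (norm_nonneg _) hmax'
  have hge : ‖T x‖ ≤ ‖T‖ := by
    have := T.le_opNorm x
    rwa [hx, mul_one] at this
  set K : ℝ := ‖T‖ with hK
  have hKx : ‖T x‖ = K := le_antisymm hge hle
  have hKpos : 0 < K := lt_of_le_of_ne (norm_nonneg _) (Ne.symm hT0)
  have hKC : (K : ℂ) ≠ 0 := by exact_mod_cast hKpos.ne'
  set y : H := ((K : ℂ)⁻¹) • T x with hy
  have hy1 : ‖y‖ = 1 := by
    rw [hy, norm_smul, norm_inv, Complex.norm_real, Real.norm_of_nonneg hKpos.le, hKx]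
    exact inv_mul_cancel₀ hKpos.ne'
  have hT2 : T x = (K : ℂ) • y := by
    rw [hy, smul_smul, mul_inv_cancel₀ hKC, one_smul]
  have hadj : ContinuousLinearMap.adjoint T y = (K : ℂ) • x := by
    have hn : ‖ContinuousLinearMap.adjoint T y‖ ≤ K := by
      have := (ContinuousLinearMap.adjoint T).le_opNorm y
      rw [hy1, mul_one, LinearIsometryEquiv.norm_map] at this
      exact this
    have hre : (⟪ContinuousLinearMap.adjoint T y, (K : ℂ) • x⟫_ℂ).re = K ^ 2 := by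
      rw [ContinuousLinearMap.adjoint_inner_left, map_smul, hT2, inner_smul_right,
        inner_smul_right, inner_self_eq_norm_sq_to_K, hy1]
      simp
      ring
    have hns : ‖(K : ℂ) • x‖ ^ 2 = K ^ 2 := by
      rw [norm_smul, hx, mul_one, Complex.norm_real, Real.norm_of_nonneg hKpos.le]
    have hsq : ‖ContinuousLinearMap.adjoint T y - (K : ℂ) • x‖ ^ 2 ≤ 0 := by
      have h5 := @norm_sub_sq ℂ H _ _ _ (ContinuousLinearMap.adjoint T y) ((K : ℂ) • x)
      have h6 : RCLike.re (⟪ContinuousLinearMap.adjoint T y, (K : ℂ) • x⟫_ℂ) = K ^ 2 := hre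
      rw [h5, h6, hns]
      nlinarith [norm_nonneg (ContinuousLinearMap.adjoint T y)]
    have h0' : ‖ContinuousLinearMap.adjoint T y - (K : ℂ) • x‖ = 0 := by
      have := norm_nonneg (ContinuousLinearMap.adjoint T y - (K : ℂ) • x)
      nlinarith
    exact sub_eq_zero.mp (norm_eq_zero.mp h0')
  have hT1 : ∀ z, ⟪y, T z⟫_ℂ = K * ⟪x, z⟫_ℂ := by
    intro z
    rw [← ContinuousLinearMap.adjoint_inner_left, hadj, inner_smul_left, Complex.conj_ofReal]
  exact main_pair h0 h1 hs hA f hF hKpos hx hy1 hT1 hT2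

end FiniteDim

section General

variable {H : Type*} [NormedAddCommGroup H] [InnerProductSpace ℂ H] [CompleteSpace H]

omit [CompleteSpace H] in
/-- Reduction to finite dimensions by compressing to a Krylov subspace. -/
theorem main_general {ρ s : ℝ} (h0 : 0 ≤ ρ) (h1 : ρ < 1) (hs : s < 1) {A : H →L[ℂ] H}
    (hA : Inside ρ s A) (f : ℂ[X]) {F : ℝ} (hF : ∀ θ, ‖f.eval (sig ρ θ)‖ ≤ F) :
    ‖aeval A f‖ ≤ 2 * F := by
  have hF0 : 0 ≤ F := (norm_nonneg _).trans (hF 0)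
  refine ContinuousLinearMap.opNorm_le_of_unit_norm (by positivity) ?_
  intro x hx
  set d := f.natDegree with hd
  set V : Submodule ℂ H := Submodule.span ℂ (Set.range (fun j : Fin (d + 1) => (A ^ (j : ℕ)) x))
    with hV
  have : FiniteDimensional ℂ V := FiniteDimensional.span_of_finite ℂ (Set.finite_range _)
  have : CompleteSpace V := FiniteDimensional.complete ℂ V
  have hmem : ∀ j : ℕ, j ≤ d → (A ^ j) x ∈ V := by
    intro j hj
    exact Submodule.subset_span ⟨⟨j, by omega⟩, rfl⟩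
  set B : V →L[ℂ] V := V.orthogonalProjectionOnto ∘L A ∘L V.subtypeL with hB
  have hBin : ∀ u : V, ⟪u, B u⟫_ℂ = ⟪(u : H), A u⟫_ℂ := fun u =>
    Submodule.inner_orthogonalProjectionOnto_eq_of_mem_left u (A (u : H))
  have hBA : Inside ρ s B := by
    intro u hu z
    rw [hBin]
    have := hA u hu (z : H)
    simpa using this
  set x0 : V := ⟨x, by simpa using hmem 0 (by omega)⟩ with hx0
  have hpow : ∀ j : ℕ, j ≤ d → (((B ^ j) x0 : V) : H) = (A ^ j) x := by
    intro j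
    induction j with
    | zero => intro _; simp [hx0]
    | succ j ih =>
      intro hj
      have hj' := ih (by omega)
      have hm := hmem (j + 1) hj
      have e : (B ^ (j + 1)) x0 = B ((B ^ j) x0) := by
        rw [pow_succ']; rfl
      rw [e]
      have e2 : B ((B ^ j) x0) = V.orthogonalProjectionOnto (A (((B ^ j) x0 : V) : H)) := rfl
      rw [e2, hj']
      have e3 : A ((A ^ j) x) = (A ^ (j + 1)) x := by
        rw [pow_succ']; rfl
      rw [e3]
      have := Submodule.orthogonalProjectionOnto_mem_subspace_eq_self (K := V)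
        ⟨(A ^ (j + 1)) x, hm⟩
      rw [this]
  have hpoly : (((aeval B f) x0 : V) : H) = (aeval A f) x := by
    rw [Polynomial.aeval_eq_sum_range, Polynomial.aeval_eq_sum_range]
    simp only [_root_.sum_apply, _root_.smul_apply]
    rw [Submodule.coe_sum]
    refine Finset.sum_congr rfl fun j hj => ?_
    rw [Submodule.coe_smul, hpow j (by
      have := Finset.mem_range.mp hj
      omega)]
  have hbd := main_fd h0 h1 hs hBA f hF
  have hx0n : ‖x0‖ = 1 := by
    rw [hx0]; simpa using hx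
  calc ‖(aeval A f) x‖ = ‖((aeval B f) x0 : V)‖ := by
        rw [← hpoly]; rfl
    _ ≤ ‖aeval B f‖ * ‖x0‖ := (aeval B f).le_opNorm x0
    _ ≤ 2 * F := by rw [hx0n, mul_one]; exact hbd

end General

/-- The normalised ellipse with semi-axes `1 + ρ`, `1 - ρ`. -/
def EllN (ρ : ℝ) : Set ℂ := {z | (z.re / (1 + ρ)) ^ 2 + (z.im / (1 - ρ)) ^ 2 ≤ 1}

theorem sig_mem {ρ : ℝ} (h0 : 0 ≤ ρ) (h1 : ρ < 1) (θ : ℝ) : sig ρ θ ∈ EllN ρ := by
  have hne : (1 + ρ) ≠ 0 := by linarith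
  have hne2 : (1 - ρ) ≠ 0 := by linarith
  have hw : sig ρ θ = (((1 + ρ) * Real.cos θ : ℝ) : ℂ) + (((ρ - 1) * Real.sin θ : ℝ) : ℂ) * I := by
    rw [sig_eq, ee, ee]
    have e1 : ((-1 : ℤ) : ℂ) * ((θ : ℂ) * I) = ((-θ : ℝ) : ℂ) * I := by push_cast; ring
    have e2 : ((1 : ℤ) : ℂ) * ((θ : ℂ) * I) = (θ : ℂ) * I := by push_cast; ring
    rw [e1, e2, Complex.exp_mul_I, Complex.exp_mul_I]
    simp only [← Complex.ofReal_cos, ← Complex.ofReal_sin, Real.cos_neg, Real.sin_neg]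
    push_cast
    ring
  have hre : (sig ρ θ).re = (1 + ρ) * Real.cos θ := by
    rw [hw, Complex.add_re, Complex.ofReal_re, Complex.re_ofReal_mul, Complex.I_re]; ring
  have him : (sig ρ θ).im = (ρ - 1) * Real.sin θ := by
    rw [hw, Complex.add_im, Complex.ofReal_im, Complex.im_ofReal_mul, Complex.I_im]; ring
  simp only [EllN, Set.mem_ofPred_eq, hre, him]
  have e1 : (1 + ρ) * Real.cos θ / (1 + ρ) = Real.cos θ := by field_simp
  have e2 : (ρ - 1) * Real.sin θ / (1 - ρ) = -Real.sin θ := by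
    have : ρ - 1 = -(1 - ρ) := by ring
    rw [this]; field_simp
  rw [e1, e2, neg_sq, Real.cos_sq_add_sin_sq]

/-- Support function of the normalised ellipse. -/
theorem support_EllN {ρ : ℝ} (h0 : 0 ≤ ρ) (h1 : ρ < 1) {z : ℂ} (hz : z ∈ EllN ρ) {u : ℂ}
    (hu : ‖u‖ = 1) : ((u - ρ * conj u) * z).re ≤ 1 - ρ ^ 2 := by
  have hpq : u.re ^ 2 + u.im ^ 2 = 1 := by
    have := Complex.sq_norm u
    rw [hu, Complex.normSq_apply] at this
    nlinarith
  simp only [EllN, Set.mem_ofPred_eq] at hz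
  set X := z.re / (1 + ρ) with hX
  set Y := z.im / (1 - ρ) with hY
  have hne : (1 + ρ) ≠ 0 := by linarith
  have hne2 : (1 - ρ) ≠ 0 := by linarith
  have hzr : z.re = (1 + ρ) * X := by rw [hX]; field_simp
  have hzi : z.im = (1 - ρ) * Y := by rw [hY]; field_simp
  have e : ((u - ρ * conj u) * z).re = (1 - ρ ^ 2) * (u.re * X - u.im * Y) := by
    simp only [Complex.mul_re, Complex.sub_re, Complex.sub_im, Complex.mul_im, Complex.ofReal_re,
      Complex.ofReal_im, Complex.conj_re, Complex.conj_im, hzr, hzi]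
    ring
  rw [e]
  have h2 : u.re * X - u.im * Y ≤ 1 := by
    nlinarith [sq_nonneg (u.re - X), sq_nonneg (u.im + Y)]
  have h3 : 0 < 1 - ρ ^ 2 := by nlinarith
  nlinarith

section Ellipse

variable {H : Type*} [NormedAddCommGroup H] [InnerProductSpace ℂ H] [CompleteSpace H]

/-- Crouzeix's inequality for the normalised ellipse. -/
theorem norm_ellipse {ρ : ℝ} (h0 : 0 ≤ ρ) (h1 : ρ < 1) {A : H →L[ℂ] H}
    (hW : ∀ x : H, ‖x‖ = 1 → ⟪x, A x⟫_ℂ ∈ EllN ρ) (f : ℂ[X]) {M : ℝ}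
    (hM : ∀ z ∈ EllN ρ, ‖f.eval z‖ ≤ M) : ‖aeval A f‖ ≤ 2 * M := by
  have hF : ∀ θ, ‖f.eval (sig ρ θ)‖ ≤ M := fun θ => hM _ (sig_mem h0 h1 θ)
  have hs1 : ∀ s : ℝ, 0 < s → s < 1 → ‖aeval ((s : ℂ) • A) f‖ ≤ 2 * M := by
    intro s hs0 hs1
    refine main_general h0 h1 hs1 ?_ f hF
    intro u hu x
    by_cases hx : x = 0
    · subst hx; simp
    have hxn : ‖x‖ ≠ 0 := norm_ne_zero_iff.mpr hx
    set y : H := ((‖x‖⁻¹ : ℝ) : ℂ) • x with hy
    have hy1 : ‖y‖ = 1 := by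
      rw [hy, norm_smul, Complex.norm_real, Real.norm_of_nonneg (by positivity)]
      exact inv_mul_cancel₀ hxn
    have hb := support_EllN h0 h1 (hW y hy1) hu
    have e : ⟪x, ((s : ℂ) • A) x⟫_ℂ = (((s * ‖x‖ ^ 2 : ℝ)) : ℂ) * ⟪y, A y⟫_ℂ := by
      rw [hy]
      simp only [_root_.smul_apply, map_smul, inner_smul_left, inner_smul_right,
        Complex.conj_ofReal]
      have hxC : ((‖x‖ : ℝ) : ℂ) ≠ 0 := by exact_mod_cast hxn
      push_cast
      field_simp
    rw [e]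
    have e2 : ((u - ρ * conj u) * (((s * ‖x‖ ^ 2 : ℝ) : ℂ) * ⟪y, A y⟫_ℂ)).re
        = (s * ‖x‖ ^ 2) * ((u - ρ * conj u) * ⟪y, A y⟫_ℂ).re := by
      have : (u - ρ * conj u) * (((s * ‖x‖ ^ 2 : ℝ) : ℂ) * ⟪y, A y⟫_ℂ)
          = ((s * ‖x‖ ^ 2 : ℝ) : ℂ) * ((u - ρ * conj u) * ⟪y, A y⟫_ℂ) := by ring
      rw [this, Complex.re_ofReal_mul]
    rw [e2]
    have h5 : 0 ≤ s * ‖x‖ ^ 2 := by positivity
    calc (s * ‖x‖ ^ 2) * ((u - ρ * conj u) * ⟪y, A y⟫_ℂ).re
        ≤ (s * ‖x‖ ^ 2) * (1 - ρ ^ 2) := mul_le_mul_of_nonneg_left hb h5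
      _ = s * (1 - ρ ^ 2) * ‖x‖ ^ 2 := by ring
  -- pass to the limit `s → 1`
  have hc : Continuous (fun s : ℝ => aeval ((s : ℂ) • A) f) := by
    have h2 : Continuous (fun s : ℝ => ((s : ℂ) • A : H →L[ℂ] H)) :=
      (Complex.continuous_ofReal).smul continuous_const
    exact (f.continuous_aeval).comp h2
  have hlim : Filter.Tendsto (fun s : ℝ => ‖aeval ((s : ℂ) • A) f‖) (nhdsWithin 1 (Set.Iio 1))
      (nhds ‖aeval (((1 : ℝ) : ℂ) • A) f‖) :=
    (hc.norm.tendsto 1).mono_left nhdsWithin_le_nhds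
  have hev : ∀ᶠ s : ℝ in nhdsWithin 1 (Set.Iio 1), ‖aeval ((s : ℂ) • A) f‖ ≤ 2 * M := by
    filter_upwards [Ioo_mem_nhdsLT (show (0 : ℝ) < 1 by norm_num)] with s hs
    exact hs1 s hs.1 hs.2
  have := le_of_tendsto hlim hev
  simpa using this

/-- The closed ellipse with centre `c₀`, semi-axes `a`, `b`, in the rotated frame `u₀`. -/
def ellipse (c₀ u₀ : ℂ) (a b : ℝ) : Set ℂ :=
  {z | ((u₀ * (z - c₀)).re / a) ^ 2 + ((u₀ * (z - c₀)).im / b) ^ 2 ≤ 1}

/-- Crouzeix's inequality for an arbitrary ellipse with `b ≤ a`. -/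
theorem crouzeix_ellipse_aux {A : H →L[ℂ] H} {p : ℂ[X]} {M : ℝ} {c₀ u₀ : ℂ} {a b : ℝ}
    (hu : ‖u₀‖ = 1) (hb : 0 < b) (hab : b ≤ a)
    (hW : ∀ x : H, ‖x‖ = 1 → ⟪x, A x⟫_ℂ ∈ ellipse c₀ u₀ a b)
    (hM : ∀ z ∈ ellipse c₀ u₀ a b, ‖p.eval z‖ ≤ M) : ‖aeval A p‖ ≤ 2 * M := by
  have ha : 0 < a := lt_of_lt_of_le hb hab
  set c : ℝ := (a + b) / 2 with hc
  have hc0 : 0 < c := by positivity
  set ρ : ℝ := (a - b) / (a + b) with hρ
  have hab2 : 0 < a + b := by positivity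
  have h0 : 0 ≤ ρ := div_nonneg (by linarith) hab2.le
  have h1 : ρ < 1 := by
    rw [hρ, div_lt_one hab2]; linarith
  have ha' : c * (1 + ρ) = a := by
    rw [hc, hρ]; field_simp; ring
  have hb' : c * (1 - ρ) = b := by
    rw [hc, hρ]; field_simp; ring
  have hcC : (c : ℂ) ≠ 0 := by exact_mod_cast hc0.ne'
  have huC : u₀ ≠ 0 := by
    intro h; rw [h] at hu; simp at hu
  set B : H →L[ℂ] H := (u₀ / c) • (A - c₀ • (1 : H →L[ℂ] H)) with hB
  set L : ℂ[X] := C c₀ + C ((c : ℂ) / u₀) * X with hL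
  have hLB : aeval B L = A := by
    simp only [hL, map_add, map_mul, aeval_C, aeval_X, hB]
    simp only [Algebra.algebraMap_eq_smul_one, smul_mul_assoc, one_mul, smul_smul]
    have : (c : ℂ) / u₀ * (u₀ / c) = 1 := by field_simp
    rw [this, one_smul]
    abel
  have hcomp : aeval B (p.comp L) = aeval A p := by
    rw [Polynomial.aeval_comp, hLB]
  -- scaling identities
  have hscale : ∀ z : ℂ, (z.re / (1 + ρ)) = ((c : ℂ) * z).re / a ∧
      (z.im / (1 - ρ)) = ((c : ℂ) * z).im / b := by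
    intro z
    have hne : (1 + ρ) ≠ 0 := by linarith
    have hne2 : (1 - ρ) ≠ 0 := by linarith
    constructor
    · rw [Complex.re_ofReal_mul, ← ha']
      field_simp
    · rw [Complex.im_ofReal_mul, ← hb']
      field_simp
  have hW' : ∀ x : H, ‖x‖ = 1 → ⟪x, B x⟫_ℂ ∈ EllN ρ := by
    intro x hx
    have hmem := hW x hx
    simp only [ellipse, Set.mem_ofPred_eq] at hmem
    simp only [EllN, Set.mem_ofPred_eq]
    have huu : ⟪x, x⟫_ℂ = 1 := by
      rw [inner_self_eq_norm_sq_to_K, hx]; simp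
    have e : (c : ℂ) * ⟪x, B x⟫_ℂ = u₀ * (⟪x, A x⟫_ℂ - c₀) := by
      simp only [hB, _root_.smul_apply, _root_.sub_apply, one_apply_eq_self, inner_smul_right,
        inner_sub_right, huu]
      field_simp
    rw [(hscale _).1, (hscale _).2, e]
    exact hmem
  have hM' : ∀ z ∈ EllN ρ, ‖(p.comp L).eval z‖ ≤ M := by
    intro z hz
    simp only [EllN, Set.mem_ofPred_eq] at hz
    rw [eval_comp]
    apply hM
    simp only [ellipse, Set.mem_ofPred_eq]
    have e : u₀ * (L.eval z - c₀) = (c : ℂ) * z := by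
      simp only [hL, eval_add, eval_mul, eval_C, eval_X]
      field_simp
      ring
    rw [e, ← (hscale z).1, ← (hscale z).2]
    exact hz
  rw [← hcomp]
  exact norm_ellipse h0 h1 hW' _ hM'

/-- Crouzeix's inequality for an arbitrary ellipse. -/
theorem crouzeix_ellipse {A : H →L[ℂ] H} {p : ℂ[X]} {M : ℝ} {c₀ u₀ : ℂ} {a b : ℝ}
    (hu : ‖u₀‖ = 1) (ha : 0 < a) (hb : 0 < b)
    (hW : ∀ x : H, ‖x‖ = 1 → ⟪x, A x⟫_ℂ ∈ ellipse c₀ u₀ a b)
    (hM : ∀ z ∈ ellipse c₀ u₀ a b, ‖p.eval z‖ ≤ M) : ‖aeval A p‖ ≤ 2 * M := by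
  rcases le_total b a with hab | hab
  · exact crouzeix_ellipse_aux hu hb hab hW hM
  · -- rotate by `i`
    have hset : ellipse c₀ u₀ a b = ellipse c₀ (I * u₀) b a := by
      ext z
      simp only [ellipse, Set.mem_ofPred_eq]
      have e1 : (I * u₀ * (z - c₀)).re = -(u₀ * (z - c₀)).im := by
        rw [mul_assoc, Complex.I_mul_re]
      have e2 : (I * u₀ * (z - c₀)).im = (u₀ * (z - c₀)).re := by
        rw [mul_assoc, Complex.I_mul_im]
      rw [e1, e2, neg_div, neg_sq, add_comm]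
    rw [hset] at hW hM
    have hu' : ‖I * u₀‖ = 1 := by
      rw [norm_mul, Complex.norm_I, one_mul, hu]
    exact crouzeix_ellipse_aux hu' ha hab hW hM

end Ellipse

end

end Vale.Agent.Lib.P123E
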