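import Vale.Agent.Lib.P123E.Analytic

/-!
# Chebyshev polynomials on the ellipse, means and Parseval
-/

open Complex Polynomial MeasureTheory Metric
open scoped Real InnerProductSpace ComplexConjugate

namespace Vale.Agent.Lib.P123E

noncomputable section

/-- Characters of the circle. -/
def ee (n : ℤ) (θ : ℝ) : ℂ := Complex.exp (n * (θ * I))

theorem continuous_ee (n : ℤ) : Continuous (ee n) := by
  unfold ee
  fun_prop

theorem ee_zero (θ : ℝ) : ee 0 θ = 1 := by simp [ee]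

theorem ee_mul (m n : ℤ) (θ : ℝ) : ee m θ * ee n θ = ee (m + n) θ := by
  simp only [ee, ← Complex.exp_add]
  congr 1
  push_cast
  ring

theorem conj_ee (n : ℤ) (θ : ℝ) : conj (ee n θ) = ee (-n) θ := by
  simp only [ee, ← Complex.exp_conj]
  congr 1
  simp only [map_mul, Complex.conj_I, Complex.conj_ofReal, map_intCast]
  push_cast
  ring

theorem norm_ee (n : ℤ) (θ : ℝ) : ‖ee n θ‖ = 1 := by
  have : ((n : ℂ) * (θ * I)) = (((n : ℝ) * θ : ℝ) : ℂ) * I := by push_cast; ring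
  rw [ee, this, Complex.norm_exp_ofReal_mul_I]

theorem ww_eq_ee (θ : ℝ) : ww θ = ee 1 θ := by
  simp [ww, ee, circleMap]

theorem ww_pow_eq (k : ℕ) (θ : ℝ) : ww θ ^ k = ee k θ := by
  rw [ww_eq_ee, ee, ← Complex.exp_nat_mul, ee]
  congr 1
  push_cast
  ring

theorem ww_inv_eq (θ : ℝ) : (ww θ)⁻¹ = ee (-1) θ := by
  rw [ww_eq_ee, ee, ee, ← Complex.exp_neg]
  congr 1
  push_cast
  ring

theorem sig_eq (ρ : ℝ) (θ : ℝ) : sig ρ θ = ee (-1) θ + ρ * ee 1 θ := by
  rw [sig, ww_inv_eq, ww_eq_ee]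

theorem avg_ee_ne {n : ℤ} (hn : n ≠ 0) : avg (ee n) = 0 := by
  have hc : ((n : ℂ) * I) ≠ 0 := by
    simp [hn]
  have h := integral_exp_mul_complex (a := 0) (b := 2 * π) hc
  have e : ∀ θ : ℝ, ee n θ = Complex.exp ((n : ℂ) * I * θ) := by
    intro θ; rw [ee]; congr 1; ring
  unfold avg
  simp only [e]
  rw [h]
  have h2 : Complex.exp ((n : ℂ) * I * ((2 * π : ℝ) : ℂ)) = 1 := by
    have : (n : ℂ) * I * ((2 * π : ℝ) : ℂ) = n * (2 * π * I) := by push_cast; ring
    rw [this, Complex.exp_int_mul_two_pi_mul_I]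
  rw [h2]
  simp

theorem avg_ee_zero : avg (ee 0) = 1 := by
  rw [show ee 0 = fun _ => (1 : ℂ) from funext ee_zero, avg_const]

/-- Chebyshev polynomials adapted to the ellipse (Faber polynomials). -/
def G (ρ : ℝ) : ℕ → ℂ[X]
  | 0 => C 2
  | 1 => X
  | (k + 2) => X * G ρ (k + 1) - C (ρ : ℂ) * G ρ k

theorem eval_G (ρ : ℝ) (θ : ℝ) : ∀ k : ℕ,
    (G ρ k).eval (sig ρ θ) = ee (-(k : ℤ)) θ + ρ ^ k * ee k θ
  | 0 => by
    simp only [G, eval_C, Nat.cast_zero, neg_zero, ee_zero, pow_zero, one_mul]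
    norm_num
  | 1 => by
    simp only [G, eval_X, sig_eq, Nat.cast_one, pow_one]
  | (k + 2) => by
    have h1 := eval_G ρ θ (k + 1)
    have h2 := eval_G ρ θ k
    simp only [G, eval_sub, eval_mul, eval_X, eval_C, h1, h2]
    rw [sig_eq]
    have e1 : ee (-1) θ * ee (-((k + 1 : ℕ) : ℤ)) θ = ee (-((k + 2 : ℕ) : ℤ)) θ := by
      rw [ee_mul]; congr 1; push_cast; ring
    have e2 : ee (-1) θ * ee ((k + 1 : ℕ) : ℤ) θ = ee (k : ℤ) θ := by
      rw [ee_mul]; congr 1; push_cast; ring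
    have e3 : ee 1 θ * ee (-((k + 1 : ℕ) : ℤ)) θ = ee (-(k : ℤ)) θ := by
      rw [ee_mul]; congr 1; push_cast; ring
    have e4 : ee 1 θ * ee ((k + 1 : ℕ) : ℤ) θ = ee ((k + 2 : ℕ) : ℤ) θ := by
      rw [ee_mul]; congr 1; push_cast; ring
    linear_combination e1 + (ρ : ℂ) ^ (k + 1) * e2 + (ρ : ℂ) * e3 + (ρ : ℂ) ^ (k + 2) * e4

/-! ### Real means -/

/-- The mean of a real function over a period. -/
def mean (g : ℝ → ℝ) : ℝ := (2 * π)⁻¹ * ∫ θ in (0 : ℝ)..2 * π, g θ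

theorem mean_add {f g : ℝ → ℝ} (hf : Continuous f) (hg : Continuous g) :
    mean (fun θ => f θ + g θ) = mean f + mean g := by
  unfold mean
  rw [intervalIntegral.integral_add (hf.intervalIntegrable _ _) (hg.intervalIntegrable _ _)]
  ring

theorem mean_const_mul (c : ℝ) (f : ℝ → ℝ) : mean (fun θ => c * f θ) = c * mean f := by
  unfold mean
  rw [intervalIntegral.integral_const_mul]
  ring

theorem mean_const (c : ℝ) : mean (fun _ => c) = c := by
  unfold mean
  rw [intervalIntegral.integral_const]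
  have hpi : (2 * π : ℝ) ≠ 0 := by positivity
  simp only [sub_zero, smul_eq_mul]
  field_simp

theorem mean_congr {f g : ℝ → ℝ} (h : ∀ θ, f θ = g θ) : mean f = mean g := by
  have : f = g := funext h
  rw [this]

theorem mean_le_mean {f g : ℝ → ℝ} (hf : Continuous f) (hg : Continuous g)
    (h : ∀ θ, f θ ≤ g θ) : mean f ≤ mean g := by
  unfold mean
  apply mul_le_mul_of_nonneg_left _ (by positivity)
  exact intervalIntegral.integral_mono_on (by positivity) (hf.intervalIntegrable _ _)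
    (hg.intervalIntegrable _ _) (fun θ _ => h θ)

theorem re_avg {g : ℝ → ℂ} (hg : Continuous g) : (avg g).re = mean (fun θ => (g θ).re) := by
  unfold avg mean
  rw [Complex.smul_re, smul_eq_mul]
  congr 1
  exact (Complex.reCLM.intervalIntegral_comp_comm (hg.intervalIntegrable _ _)).symm

theorem norm_avg_le (g : ℝ → ℂ) : ‖avg g‖ ≤ mean (fun θ => ‖g θ‖) := by
  unfold avg mean
  rw [norm_smul]
  have hpos : (0 : ℝ) < 2 * π := by positivity
  have h1 : ‖(2 * π : ℝ)⁻¹‖ = (2 * π)⁻¹ := by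
    rw [Real.norm_of_nonneg (by positivity)]
  rw [h1]
  apply mul_le_mul_of_nonneg_left _ (by positivity)
  exact intervalIntegral.norm_integral_le_integral_norm hpos.le

/-! ### Orthogonal additions -/

/-- If `g` is orthogonal to `e_p`, adding a multiple of `e_p` adds the squared coefficient. -/
theorem mean_norm_add_ee {g : ℝ → ℂ} (hg : Continuous g) (a : ℂ) (p : ℤ)
    (h : avg (fun θ => g θ * ee (-p) θ) = 0) :
    mean (fun θ => ‖g θ + a * ee p θ‖ ^ 2) = mean (fun θ => ‖g θ‖ ^ 2) + ‖a‖ ^ 2 := by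
  have hpt : ∀ θ, ‖g θ + a * ee p θ‖ ^ 2
      = ‖g θ‖ ^ 2 + ‖a‖ ^ 2 + 2 * ((conj a * (g θ * ee (-p) θ)).re) := by
    intro θ
    have h1 : ‖a * ee p θ‖ = ‖a‖ := by rw [norm_mul, norm_ee, mul_one]
    have h2 : ‖g θ + a * ee p θ‖ ^ 2 = ‖g θ‖ ^ 2 + ‖a * ee p θ‖ ^ 2
        + 2 * (g θ * conj (a * ee p θ)).re := by
      rw [Complex.sq_norm, Complex.sq_norm, Complex.sq_norm, Complex.normSq_add]
    rw [h2, h1, map_mul, conj_ee]
    have : g θ * (conj a * ee (-p) θ) = conj a * (g θ * ee (-p) θ) := by ring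
    rw [this]
  rw [mean_congr hpt]
  have hc : Continuous (fun θ => g θ * ee (-p) θ) := hg.mul (continuous_ee _)
  have hc2 : Continuous (fun θ => conj a * (g θ * ee (-p) θ)) := continuous_const.mul hc
  have hm : mean (fun θ => (conj a * (g θ * ee (-p) θ)).re) = 0 := by
    rw [← re_avg hc2, avg_const_mul, h]
    simp
  have e : mean (fun θ => ‖g θ‖ ^ 2 + ‖a‖ ^ 2 + 2 * ((conj a * (g θ * ee (-p) θ)).re))
      = mean (fun θ => ‖g θ‖ ^ 2) + ‖a‖ ^ 2
        + 2 * mean (fun θ => (conj a * (g θ * ee (-p) θ)).re) := by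
    have c1 : Continuous (fun θ => ‖g θ‖ ^ 2) := hg.norm.pow 2
    have c2 : Continuous (fun θ => (conj a * (g θ * ee (-p) θ)).re) :=
      Complex.continuous_re.comp hc2
    have c3 : Continuous (fun θ => ‖g θ‖ ^ 2 + ‖a‖ ^ 2) := c1.add continuous_const
    have c4 : Continuous (fun θ => 2 * (conj a * (g θ * ee (-p) θ)).re) := continuous_const.mul c2
    rw [mean_add c3 c4, mean_add c1 continuous_const, mean_const, mean_const_mul]
  rw [e, hm]
  ring

/-- The trigonometric polynomial attached to the coefficients `d`. -/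
def Tn (ρ : ℝ) (d : ℕ → ℂ) (n : ℕ) (θ : ℝ) : ℂ :=
  1 + ∑ k ∈ Finset.range n, d (k + 1) *
    (ee (-((k + 1 : ℕ) : ℤ)) θ + ρ ^ (k + 1) * ee ((k + 1 : ℕ) : ℤ) θ)

theorem continuous_Tn (ρ : ℝ) (d : ℕ → ℂ) (n : ℕ) : Continuous (Tn ρ d n) := by
  unfold Tn
  refine continuous_const.add (continuous_finsetSum _ fun k _ => ?_)
  exact continuous_const.mul ((continuous_ee _).add (continuous_const.mul (continuous_ee _)))

theorem Tn_succ (ρ : ℝ) (d : ℕ → ℂ) (n : ℕ) (θ : ℝ) :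
    Tn ρ d (n + 1) θ = (Tn ρ d n θ + d (n + 1) * ee (-((n + 1 : ℕ) : ℤ)) θ)
      + (d (n + 1) * ρ ^ (n + 1)) * ee ((n + 1 : ℕ) : ℤ) θ := by
  simp only [Tn, Finset.sum_range_succ]
  ring

/-- Frequency bound and norm of `Tn`. -/
theorem Tn_spec {ρ : ℝ} (h0 : 0 ≤ ρ) (h1 : ρ < 1) (d : ℕ → ℂ) (n : ℕ) :
    (∀ j : ℤ, (n : ℤ) < |j| → avg (fun θ => Tn ρ d n θ * ee j θ) = 0) ∧
      mean (fun θ => ‖Tn ρ d n θ‖ ^ 2)
        ≤ 1 + (1 / 2) * ∑ k ∈ Finset.range n, ‖2 * d (k + 1)‖ ^ 2 := by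
  induction n with
  | zero =>
    constructor
    · intro j hj
      have hj0 : j ≠ 0 := by
        intro h; subst h; simp at hj
      have : ∀ θ, Tn ρ d 0 θ * ee j θ = ee j θ := by
        intro θ; simp [Tn]
      rw [avg_congr this]
      exact avg_ee_ne hj0
    · have : ∀ θ, ‖Tn ρ d 0 θ‖ ^ 2 = 1 := by
        intro θ; simp [Tn]
      rw [mean_congr this, mean_const]
      simp
  | succ n ih =>
    obtain ⟨ihf, ihn⟩ := ih
    have hc := continuous_Tn ρ d n
    set a := d (n + 1) with ha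
    set a' := d (n + 1) * (ρ : ℂ) ^ (n + 1) with ha'
    constructor
    · intro j hj
      have hj' : (n : ℤ) < |j| := by push_cast at hj; omega
      have hj1 : j + (-((n + 1 : ℕ) : ℤ)) ≠ 0 := by
        intro h
        have : j = ((n + 1 : ℕ) : ℤ) := by omega
        rw [this] at hj
        rw [abs_of_nonneg (by positivity)] at hj
        exact lt_irrefl _ hj
      have hj2 : j + ((n + 1 : ℕ) : ℤ) ≠ 0 := by
        intro h
        have : j = -((n + 1 : ℕ) : ℤ) := by omega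
        rw [this, abs_neg, abs_of_nonneg (by positivity)] at hj
        exact lt_irrefl _ hj
      have e : ∀ θ, Tn ρ d (n + 1) θ * ee j θ
          = Tn ρ d n θ * ee j θ + a * ee (j + (-((n + 1 : ℕ) : ℤ))) θ
            + a' * ee (j + ((n + 1 : ℕ) : ℤ)) θ := by
        intro θ
        rw [Tn_succ, ← ee_mul j, ← ee_mul j]
        ring
      have c1 : Continuous (fun θ => Tn ρ d n θ * ee j θ) := hc.mul (continuous_ee _)
      have c2 : Continuous (fun θ => a * ee (j + (-((n + 1 : ℕ) : ℤ))) θ) :=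
        continuous_const.mul (continuous_ee _)
      have c3 : Continuous (fun θ => a' * ee (j + ((n + 1 : ℕ) : ℤ)) θ) :=
        continuous_const.mul (continuous_ee _)
      have c4 : Continuous (fun θ => Tn ρ d n θ * ee j θ
          + a * ee (j + (-((n + 1 : ℕ) : ℤ))) θ) := c1.add c2
      rw [avg_congr e, avg_add c4 c3, avg_add c1 c2,
        ihf j hj', avg_const_mul, avg_const_mul, avg_ee_ne hj1, avg_ee_ne hj2]
      simp
    · have hn1 : |(((n + 1 : ℕ) : ℤ))| = ((n + 1 : ℕ) : ℤ) := abs_of_nonneg (by positivity)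
      have o1 : avg (fun θ => Tn ρ d n θ * ee (-(-((n + 1 : ℕ) : ℤ))) θ) = 0 := by
        apply ihf
        rw [neg_neg, hn1]
        push_cast
        omega
      have s1 := mean_norm_add_ee hc a (-((n + 1 : ℕ) : ℤ)) o1
      have hc2 : Continuous (fun θ => Tn ρ d n θ + a * ee (-((n + 1 : ℕ) : ℤ)) θ) :=
        hc.add (continuous_const.mul (continuous_ee _))
      have o2 : avg (fun θ => (Tn ρ d n θ + a * ee (-((n + 1 : ℕ) : ℤ)) θ)
          * ee (-((n + 1 : ℕ) : ℤ)) θ) = 0 := by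
        have e : ∀ θ, (Tn ρ d n θ + a * ee (-((n + 1 : ℕ) : ℤ)) θ) * ee (-((n + 1 : ℕ) : ℤ)) θ
            = Tn ρ d n θ * ee (-((n + 1 : ℕ) : ℤ)) θ
              + a * ee (-((n + 1 : ℕ) : ℤ) + -((n + 1 : ℕ) : ℤ)) θ := by
          intro θ
          rw [← ee_mul]
          ring
        have c1 : Continuous (fun θ => Tn ρ d n θ * ee (-((n + 1 : ℕ) : ℤ)) θ) :=
          hc.mul (continuous_ee _)
        have c2 : Continuous (fun θ => a * ee (-((n + 1 : ℕ) : ℤ) + -((n + 1 : ℕ) : ℤ)) θ) :=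
          continuous_const.mul (continuous_ee _)
        rw [avg_congr e, avg_add c1 c2, avg_const_mul]
        have h3 : (n : ℤ) < |-(((n + 1 : ℕ) : ℤ))| := by
          rw [abs_neg, hn1]; push_cast; omega
        have h4 : (-((n + 1 : ℕ) : ℤ) + -((n + 1 : ℕ) : ℤ)) ≠ 0 := by
          push_cast; omega
        rw [ihf _ h3, avg_ee_ne h4]
        simp
      have s2 := mean_norm_add_ee hc2 a' ((n + 1 : ℕ) : ℤ) o2
      have e : ∀ θ, ‖Tn ρ d (n + 1) θ‖ ^ 2
          = ‖(Tn ρ d n θ + a * ee (-((n + 1 : ℕ) : ℤ)) θ) + a' * ee ((n + 1 : ℕ) : ℤ) θ‖ ^ 2 := by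
        intro θ; rw [Tn_succ]
      rw [mean_congr e, s2, s1, Finset.sum_range_succ]
      have hρ : ‖a'‖ ^ 2 ≤ ‖a‖ ^ 2 := by
        rw [ha', ha, norm_mul, norm_pow, Complex.norm_real, Real.norm_of_nonneg h0, mul_pow]
        have : (ρ ^ (n + 1)) ^ 2 ≤ 1 := by
          have : ρ ^ (n + 1) ≤ 1 := pow_le_one₀ h0 h1.le
          have h5 : 0 ≤ ρ ^ (n + 1) := by positivity
          nlinarith
        have h6 : 0 ≤ ‖d (n + 1)‖ ^ 2 := by positivity
        nlinarith
      have h2a : ‖2 * a‖ ^ 2 = 4 * ‖a‖ ^ 2 := by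
        rw [norm_mul]; norm_num; ring
      rw [show d (n + 1) = a from rfl] at *
      rw [h2a]
      nlinarith

end

end Vale.Agent.Lib.P123E
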