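import Vale.Agent.Lib.P123E.Fourier

/-!
# Crouzeix's inequality for operators with numerical range in an ellipse: the main inequality
-/

open Complex Polynomial MeasureTheory Metric
open scoped Real InnerProductSpace ComplexConjugate

namespace Vale.Agent.Lib.P123E

noncomputable section

variable {H : Type*} [NormedAddCommGroup H] [InnerProductSpace ℂ H]

/-- Cauchy-Schwarz for the positive form `2 Re ⟨z, Q z⟩`. -/
theorem form_cs (Q : H →L[ℂ] H) (hQ : ∀ z, 0 ≤ (⟪z, Q z⟫_ℂ).re) (x y : H) :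
    ‖⟪y, Q x⟫_ℂ + conj ⟪x, Q y⟫_ℂ‖ ^ 2
      ≤ (2 * (⟪x, Q x⟫_ℂ).re) * (2 * (⟪y, Q y⟫_ℂ).re) := by
  set d : ℂ := ⟪y, Q x⟫_ℂ + conj ⟪x, Q y⟫_ℂ with hd
  set a : ℝ := 2 * (⟪x, Q x⟫_ℂ).re with ha
  set c : ℝ := 2 * (⟪y, Q y⟫_ℂ).re with hc
  have ha0 : 0 ≤ a := by have := hQ x; linarith
  have hc0 : 0 ≤ c := by have := hQ y; linarith
  -- the quadratic polynomial in a real parameter
  have hq : ∀ l : ℝ, 0 ≤ a + l ^ 2 * ‖d‖ ^ 2 * c - 2 * l * ‖d‖ ^ 2 := by
    intro l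
    set t : ℂ := -(l : ℂ) * d with ht
    have h := hQ (x + t • y)
    have e : ⟪x + t • y, Q (x + t • y)⟫_ℂ
        = ⟪x, Q x⟫_ℂ + t * ⟪x, Q y⟫_ℂ + conj t * ⟪y, Q x⟫_ℂ + (conj t * t) * ⟪y, Q y⟫_ℂ := by
      simp only [map_add, map_smul, inner_add_left, inner_add_right, inner_smul_left,
        inner_smul_right]
      ring
    rw [e] at h
    have e1 : conj t * t = ((l ^ 2 * ‖d‖ ^ 2 : ℝ) : ℂ) := by
      rw [mul_comm, Complex.mul_conj, Complex.normSq_eq_norm_sq, ht, norm_mul, norm_neg,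
        Complex.norm_real, mul_pow, Real.norm_eq_abs, sq_abs]
    have e2 : (t * ⟪x, Q y⟫_ℂ).re = (conj t * conj ⟪x, Q y⟫_ℂ).re := by
      rw [← map_mul, Complex.conj_re]
    have e3 : (conj t * d).re = -l * ‖d‖ ^ 2 := by
      have : conj t * d = ((-l * ‖d‖ ^ 2 : ℝ) : ℂ) := by
        rw [ht]
        simp only [map_mul, map_neg, Complex.conj_ofReal]
        have h5 : conj d * d = ((‖d‖ ^ 2 : ℝ) : ℂ) := by
          rw [mul_comm, Complex.mul_conj, Complex.normSq_eq_norm_sq]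
        push_cast at h5 ⊢
        linear_combination (-(l : ℂ)) * h5
      rw [this, Complex.ofReal_re]
    have e4 : (conj t * d).re = (t * ⟪x, Q y⟫_ℂ).re + (conj t * ⟪y, Q x⟫_ℂ).re := by
      rw [hd, mul_add, Complex.add_re, e2]
      ring
    simp only [Complex.add_re, e1, Complex.re_ofReal_mul] at h
    have e5 : (t * ⟪x, Q y⟫_ℂ).re + (conj t * ⟪y, Q x⟫_ℂ).re = -l * ‖d‖ ^ 2 := by
      rw [← e4, e3]
    nlinarith
  by_cases hc1 : c = 0
  · have hd0 : ‖d‖ ^ 2 = 0 := by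
      by_contra hne
      have hpos : 0 < ‖d‖ ^ 2 := lt_of_le_of_ne (by positivity) (Ne.symm hne)
      have := hq ((a + 1) / (2 * ‖d‖ ^ 2))
      rw [hc1] at this
      have hd1 : ‖d‖ ≠ 0 := by
        intro h; apply hne; rw [h]; simp
      have e : 2 * ((a + 1) / (2 * ‖d‖ ^ 2)) * ‖d‖ ^ 2 = a + 1 := by field_simp
      nlinarith
    rw [hd0, hc1]
    simp
  · have hcpos : 0 < c := lt_of_le_of_ne hc0 (Ne.symm hc1)
    have := hq (1 / c)
    have e : (1 / c) ^ 2 * ‖d‖ ^ 2 * c = ‖d‖ ^ 2 / c := by field_simp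
    have e2 : 2 * (1 / c) * ‖d‖ ^ 2 = 2 * (‖d‖ ^ 2 / c) := by field_simp
    rw [e, e2] at this
    have h3 : ‖d‖ ^ 2 / c ≤ a := by linarith
    rw [div_le_iff₀ hcpos] at h3
    linarith

variable [CompleteSpace H]

section Facts

variable {ρ s : ℝ} (h0 : 0 ≤ ρ) (h1 : ρ < 1) (hs : s < 1) {A : H →L[ℂ] H} (hA : Inside ρ s A)

include h0 h1 hs hA

theorem continuous_vv (x y : H) : Continuous (fun θ => vv ρ A x y (ww θ)) :=
  continuous_comp_ww (fun _ hw => differentiableAt_vv h0 h1 hs hA x y hw)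

/-- Positive frequencies vanish. -/
theorem avg_ee_vv (x y : H) {k : ℕ} (hk : 1 ≤ k) :
    avg (fun θ => ee (k : ℤ) θ * vv ρ A x y (ww θ)) = 0 := by
  have e : ∀ θ, ee (k : ℤ) θ * vv ρ A x y (ww θ)
      = (fun w => w ^ k * vv ρ A x y w) (ww θ) := by
    intro θ; simp only [ww_pow_eq]
  have hmv := avg_mean_value (f := fun w => w ^ k * vv ρ A x y w) (fun w hw =>
    (by fun_prop : DifferentiableAt ℂ (fun w : ℂ => w ^ k) w).mul
      (differentiableAt_vv h0 h1 hs hA x y hw))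
  rw [avg_congr e, hmv]
  simp [zero_pow (by omega : k ≠ 0)]

/-- Mean of a product of two analytic functions. -/
theorem avg_vv_mul (x y x' y' : H) :
    avg (fun θ => vv ρ A x y (ww θ) * vv ρ A x' y' (ww θ)) = ⟪y, x⟫_ℂ * ⟪y', x'⟫_ℂ := by
  have : (vv ρ A x y 0) * (vv ρ A x' y' 0) = ⟪y, x⟫_ℂ * ⟪y', x'⟫_ℂ := by
    rw [vv_zero, vv_zero]
  rw [← this]
  exact avg_mean_value (f := fun w => vv ρ A x y w * vv ρ A x' y' w) (fun w hw =>
    (differentiableAt_vv h0 h1 hs hA x y hw).mul (differentiableAt_vv h0 h1 hs hA x' y' hw))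

/-- Negative frequencies are the Faber moments. -/
theorem avg_ee_neg_vv (x y : H) {k : ℕ} (hk : 1 ≤ k) :
    avg (fun θ => ee (-(k : ℤ)) θ * vv ρ A x y (ww θ)) = ⟪y, (aeval A (G ρ k)) x⟫_ℂ := by
  have h := avg_poly h0 h1 hs hA x y (G ρ k)
  rw [← h]
  have e : ∀ θ, (G ρ k).eval (sig ρ θ) * vv ρ A x y (ww θ)
      = ee (-(k : ℤ)) θ * vv ρ A x y (ww θ)
        + (ρ : ℂ) ^ k * (ee (k : ℤ) θ * vv ρ A x y (ww θ)) := by
    intro θ; rw [eval_G]; ring
  have c1 : Continuous (fun θ => ee (-(k : ℤ)) θ * vv ρ A x y (ww θ)) :=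
    (continuous_ee _).mul (continuous_vv h0 h1 hs hA x y)
  have c2 : Continuous (fun θ => (ρ : ℂ) ^ k * (ee (k : ℤ) θ * vv ρ A x y (ww θ))) :=
    continuous_const.mul ((continuous_ee _).mul (continuous_vv h0 h1 hs hA x y))
  rw [avg_congr e, avg_add c1 c2, avg_const_mul, avg_ee_vv h0 h1 hs hA x y hk]
  simp

/-- Parseval for the boundary values, indexed by the natural numbers. -/
theorem parseval_vv (x y : H) :
    HasSum (fun n : ℕ => ‖avg (fun θ => ee (-(n : ℤ)) θ * vv ρ A x y (ww θ))‖ ^ 2)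
      (mean (fun θ => ‖vv ρ A x y (ww θ)‖ ^ 2)) := by
  have hpos : (0 : ℝ) < 2 * π := by positivity
  set f : ℝ → ℂ := fun θ => vv ρ A x y (ww θ) with hf
  have hcf : Continuous f := continuous_vv h0 h1 hs hA x y
  have hL2 : MemLp f 2 (volume.restrict (Set.Ioc 0 (2 * π))) := by
    obtain ⟨C, hC⟩ := (isCompact_Icc (a := (0 : ℝ)) (b := 2 * π)).exists_bound_of_continuousOn
      hcf.continuousOn
    refine MemLp.of_bound hcf.aestronglyMeasurable C ?_
    filter_upwards [ae_restrict_mem measurableSet_Ioc] with θ hθ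
    exact hC θ (Set.Ioc_subset_Icc_self hθ)
  have hP := hasSum_sq_fourierCoeffOn hpos hL2
  have hcoef : ∀ i : ℤ, fourierCoeffOn hpos f i = avg (fun θ => ee (-i) θ * f θ) := by
    intro i
    rw [fourierCoeffOn_eq_integral]
    unfold avg
    have e : ∀ θ : ℝ, (fourier (-i) (θ : AddCircle ((2 * π) - 0))) • f θ = ee (-i) θ * f θ := by
      intro θ
      rw [fourier_coe_apply, smul_eq_mul, ee]
      congr 2
      have hpi : (π : ℂ) ≠ 0 := by exact_mod_cast Real.pi_ne_zero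
      push_cast
      field_simp
      ring
    simp only [e, sub_zero, Complex.real_smul]
    simp only [one_div]
    try push_cast
    try ring
  have hvan : ∀ i : ℤ, i ∉ Set.range (fun n : ℕ => (n : ℤ)) → ‖fourierCoeffOn hpos f i‖ ^ 2 = 0 := by
    intro i hi
    have hi0 : i < 0 := by
      by_contra hc
      apply hi
      exact ⟨i.toNat, by simp; omega⟩
    obtain ⟨k, hk⟩ : ∃ k : ℕ, -i = (k : ℤ) := ⟨(-i).toNat, by omega⟩
    have hk1 : 1 ≤ k := by omega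
    rw [hcoef, hk]
    rw [avg_ee_vv h0 h1 hs hA x y hk1]
    simp
  have hinj : Function.Injective (fun n : ℕ => (n : ℤ)) := Nat.cast_injective
  have hS := (hinj.hasSum_iff hvan).mpr hP
  have e : (fun n : ℕ => ‖avg (fun θ => ee (-(n : ℤ)) θ * f θ)‖ ^ 2)
      = (fun i : ℤ => ‖fourierCoeffOn hpos f i‖ ^ 2) ∘ (fun n : ℕ => (n : ℤ)) := by
    funext n
    simp only [Function.comp, hcoef]
  rw [e]
  convert hS using 1
  simp [mean]
  rfl

/-- The key `L²` bound for the mixed function `⟨y, Q x⟩`. -/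
theorem mean_vxy_le {x y : H} (hx : ‖x‖ = 1) (hy : ‖y‖ = 1) :
    mean (fun θ => ‖vv ρ A x y (ww θ)‖ ^ 2)
      ≤ mean (fun θ => ‖vv ρ A x x (ww θ)‖ ^ 2) + mean (fun θ => ‖vv ρ A y y (ww θ)‖ ^ 2) + 2 := by
  have cxy := continuous_vv h0 h1 hs hA x y
  have cyx := continuous_vv h0 h1 hs hA y x
  have cxx := continuous_vv h0 h1 hs hA x x
  have cyy := continuous_vv h0 h1 hs hA y y
  -- mean of the squares of the diagonal parts
  have hdiag : ∀ u : H, ‖u‖ = 1 → mean (fun θ => (2 * (vv ρ A u u (ww θ)).re) ^ 2)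
      = 2 * mean (fun θ => ‖vv ρ A u u (ww θ)‖ ^ 2) + 2 := by
    intro u hu
    have cuu := continuous_vv h0 h1 hs hA u u
    have hpt : ∀ θ, (2 * (vv ρ A u u (ww θ)).re) ^ 2
        = 2 * ‖vv ρ A u u (ww θ)‖ ^ 2 + 2 * (vv ρ A u u (ww θ) * vv ρ A u u (ww θ)).re := by
      intro θ
      rw [Complex.sq_norm, Complex.normSq_apply, Complex.mul_re]
      ring
    have c1 : Continuous (fun θ => ‖vv ρ A u u (ww θ)‖ ^ 2) := cuu.norm.pow 2
    have c2 : Continuous (fun θ => vv ρ A u u (ww θ) * vv ρ A u u (ww θ)) := cuu.mul cuu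
    have c3 : Continuous (fun θ => (vv ρ A u u (ww θ) * vv ρ A u u (ww θ)).re) :=
      Complex.continuous_re.comp c2
    have c4 : Continuous (fun θ => 2 * ‖vv ρ A u u (ww θ)‖ ^ 2) := continuous_const.mul c1
    have c5 : Continuous (fun θ => 2 * (vv ρ A u u (ww θ) * vv ρ A u u (ww θ)).re) :=
      continuous_const.mul c3
    rw [mean_congr hpt, mean_add c4 c5, mean_const_mul, mean_const_mul, ← re_avg c2,
      avg_vv_mul h0 h1 hs hA]
    have huu : ⟪u, u⟫_ℂ = 1 := by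
      rw [inner_self_eq_norm_sq_to_K, hu]; simp
    rw [huu]
    simp
  -- the mixed function
  have hmix : mean (fun θ => ‖vv ρ A x y (ww θ) + conj (vv ρ A y x (ww θ))‖ ^ 2)
      = mean (fun θ => ‖vv ρ A x y (ww θ)‖ ^ 2) + mean (fun θ => ‖vv ρ A y x (ww θ)‖ ^ 2)
        + 2 * ‖⟪x, y⟫_ℂ‖ ^ 2 := by
    have hpt : ∀ θ, ‖vv ρ A x y (ww θ) + conj (vv ρ A y x (ww θ))‖ ^ 2
        = ‖vv ρ A x y (ww θ)‖ ^ 2 + ‖vv ρ A y x (ww θ)‖ ^ 2
          + 2 * (vv ρ A x y (ww θ) * vv ρ A y x (ww θ)).re := by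
      intro θ
      rw [Complex.sq_norm, Complex.sq_norm, Complex.sq_norm, Complex.normSq_add,
        Complex.normSq_conj, Complex.conj_conj]
    have c1 : Continuous (fun θ => ‖vv ρ A x y (ww θ)‖ ^ 2) := cxy.norm.pow 2
    have c2 : Continuous (fun θ => ‖vv ρ A y x (ww θ)‖ ^ 2) := cyx.norm.pow 2
    have c3 : Continuous (fun θ => vv ρ A x y (ww θ) * vv ρ A y x (ww θ)) := cxy.mul cyx
    have c4 : Continuous (fun θ => (vv ρ A x y (ww θ) * vv ρ A y x (ww θ)).re) :=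
      Complex.continuous_re.comp c3
    have c5 : Continuous (fun θ => ‖vv ρ A x y (ww θ)‖ ^ 2 + ‖vv ρ A y x (ww θ)‖ ^ 2) := c1.add c2
    have c6 : Continuous (fun θ => 2 * (vv ρ A x y (ww θ) * vv ρ A y x (ww θ)).re) :=
      continuous_const.mul c4
    rw [mean_congr hpt, mean_add c5 c6, mean_add c1 c2, mean_const_mul, ← re_avg c3,
      avg_vv_mul h0 h1 hs hA]
    have e : (⟪y, x⟫_ℂ * ⟪x, y⟫_ℂ).re = ‖⟪x, y⟫_ℂ‖ ^ 2 := by
      rw [← inner_conj_symm y x, mul_comm, Complex.mul_conj, Complex.normSq_eq_norm_sq]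
      rw [Complex.ofReal_re]
    rw [e]
  -- pointwise Cauchy-Schwarz
  have hcs : mean (fun θ => ‖vv ρ A x y (ww θ) + conj (vv ρ A y x (ww θ))‖ ^ 2)
      ≤ mean (fun θ => ((2 * (vv ρ A x x (ww θ)).re) ^ 2 + (2 * (vv ρ A y y (ww θ)).re) ^ 2) / 2) := by
    apply mean_le_mean
    · exact (cxy.add (continuous_conj.comp cyx)).norm.pow 2
    · refine Continuous.div_const ?_ _
      exact ((continuous_const.mul (Complex.continuous_re.comp cxx)).pow 2).add
        ((continuous_const.mul (Complex.continuous_re.comp cyy)).pow 2)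
    · intro θ
      have hQ : ∀ z, 0 ≤ (⟪z, Qw ρ A (ww θ) z⟫_ℂ).re := fun z =>
        re_vv_nonneg h0 h1 hs hA (norm_ww θ) z
      have := form_cs (Qw ρ A (ww θ)) hQ x y
      simp only [vv]
      nlinarith [sq_nonneg (2 * (⟪x, Qw ρ A (ww θ) x⟫_ℂ).re - 2 * (⟪y, Qw ρ A (ww θ) y⟫_ℂ).re)]
  have hsplit : mean (fun θ => ((2 * (vv ρ A x x (ww θ)).re) ^ 2
      + (2 * (vv ρ A y y (ww θ)).re) ^ 2) / 2)
      = (mean (fun θ => (2 * (vv ρ A x x (ww θ)).re) ^ 2)
        + mean (fun θ => (2 * (vv ρ A y y (ww θ)).re) ^ 2)) / 2 := by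
    have e : ∀ θ, ((2 * (vv ρ A x x (ww θ)).re) ^ 2 + (2 * (vv ρ A y y (ww θ)).re) ^ 2) / 2
        = (1 / 2) * ((2 * (vv ρ A x x (ww θ)).re) ^ 2 + (2 * (vv ρ A y y (ww θ)).re) ^ 2) := by
      intro θ; ring
    have c1 : Continuous (fun θ => (2 * (vv ρ A x x (ww θ)).re) ^ 2) :=
      (continuous_const.mul (Complex.continuous_re.comp cxx)).pow 2
    have c2 : Continuous (fun θ => (2 * (vv ρ A y y (ww θ)).re) ^ 2) :=
      (continuous_const.mul (Complex.continuous_re.comp cyy)).pow 2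
    rw [mean_congr e, mean_const_mul, mean_add c1 c2]
    ring
  have hnn : 0 ≤ mean (fun θ => ‖vv ρ A y x (ww θ)‖ ^ 2) := by
    unfold mean
    apply mul_nonneg (by positivity)
    exact intervalIntegral.integral_nonneg (by positivity) (fun θ _ => by positivity)
  rw [hsplit, hdiag x hx, hdiag y hy] at hcs
  rw [hmix] at hcs
  have : 0 ≤ ‖⟪x, y⟫_ℂ‖ ^ 2 := by positivity
  linarith

end Facts

/-- The polynomial test functions. -/
def bb (ρ : ℝ) (d : ℕ → ℂ) (n : ℕ) : ℂ[X] :=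
  1 + ∑ k ∈ Finset.range n, C (d (k + 1)) * G ρ (k + 1)

theorem eval_bb (ρ : ℝ) (d : ℕ → ℂ) (n : ℕ) (θ : ℝ) : (bb ρ d n).eval (sig ρ θ) = Tn ρ d n θ := by
  simp only [bb, Tn, eval_add, eval_one, eval_finsetSum, eval_mul, eval_C, eval_G]

/-- The main inequality at a singular pair. -/
theorem main_pair {ρ s : ℝ} (h0 : 0 ≤ ρ) (h1 : ρ < 1) (hs : s < 1) {A : H →L[ℂ] H}
    (hA : Inside ρ s A) (f : ℂ[X]) {F : ℝ} (hF : ∀ θ, ‖f.eval (sig ρ θ)‖ ≤ F) {K : ℝ} (hK : 0 < K)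
    {x y : H} (hx : ‖x‖ = 1) (hy : ‖y‖ = 1)
    (hT1 : ∀ z, ⟪y, (aeval A f) z⟫_ℂ = K * ⟪x, z⟫_ℂ) (hT2 : (aeval A f) x = (K : ℂ) • y) :
    K ≤ 2 * F := by
  have hF0 : 0 ≤ F := (norm_nonneg _).trans (hF 0)
  have hKC : (K : ℂ) ≠ 0 := by exact_mod_cast hK.ne'
  -- the diagonal moments agree
  have hcomm : ∀ q : ℂ[X], ⟪y, (aeval A q) y⟫_ℂ = ⟪x, (aeval A q) x⟫_ℂ := by
    intro q
    have e1 : ⟪y, (aeval A q) ((aeval A f) x)⟫_ℂ = K * ⟪y, (aeval A q) y⟫_ℂ := by
      rw [hT2, map_smul, inner_smul_right]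
    have e2 : (aeval A q) ((aeval A f) x) = (aeval A f) ((aeval A q) x) := by
      have : aeval A q * aeval A f = aeval A f * aeval A q := by
        rw [← map_mul, ← map_mul, mul_comm]
      exact congrArg (fun T : H →L[ℂ] H => T x) this
    have e3 : ⟪y, (aeval A f) ((aeval A q) x)⟫_ℂ = K * ⟪x, (aeval A q) x⟫_ℂ := hT1 _
    rw [e2, e3] at e1
    exact (mul_left_cancel₀ hKC e1).symm
  have huu : ∀ u : H, ‖u‖ = 1 → ⟪u, u⟫_ℂ = 1 := by
    intro u hu
    rw [inner_self_eq_norm_sq_to_K, hu]; simp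
  -- Fourier coefficients
  set cn : ℕ → ℂ := fun n => avg (fun θ => ee (-(n : ℤ)) θ * vv ρ A x x (ww θ)) with hcn
  have hcn0 : cn 0 = 1 := by
    have := avg_mean_value (f := vv ρ A x x)
      (fun w hw => differentiableAt_vv h0 h1 hs hA x x hw)
    simp only [hcn, Nat.cast_zero, neg_zero, ee_zero, one_mul]
    rw [this, vv_zero, huu x hx]
  have hcnk : ∀ k : ℕ, 1 ≤ k → cn k = ⟪x, (aeval A (G ρ k)) x⟫_ℂ := fun k hk =>
    avg_ee_neg_vv h0 h1 hs hA x x hk
  have hcny : ∀ n : ℕ, avg (fun θ => ee (-(n : ℤ)) θ * vv ρ A y y (ww θ)) = cn n := by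
    intro n
    rcases Nat.eq_zero_or_pos n with hn | hn
    · subst hn
      have := avg_mean_value (f := vv ρ A y y)
        (fun w hw => differentiableAt_vv h0 h1 hs hA y y hw)
      simp only [Nat.cast_zero, neg_zero, ee_zero, one_mul]
      rw [this, vv_zero, huu y hy, hcn0]
    · rw [avg_ee_neg_vv h0 h1 hs hA y y hn, hcomm, hcnk n hn]
  have hPx := parseval_vv h0 h1 hs hA x x
  have hPy := parseval_vv h0 h1 hs hA y y
  simp only [hcny] at hPy
  have hSeq := hPy.unique hPx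
  set S : ℝ := mean (fun θ => ‖vv ρ A x x (ww θ)‖ ^ 2) with hS
  have hS0 : 0 ≤ S := by
    rw [hS]
    unfold mean
    apply mul_nonneg (by positivity)
    exact intervalIntegral.integral_nonneg (by positivity) (fun θ _ => by positivity)
  have hmix := mean_vxy_le h0 h1 hs hA hx hy
  rw [hSeq] at hmix
  -- the test functions
  set d : ℕ → ℂ := fun k => conj (cn k) / 2 with hd
  have hnorm2d : ∀ k, ‖2 * d k‖ ^ 2 = ‖cn k‖ ^ 2 := by
    intro k
    have : 2 * d k = conj (cn k) := by simp only [hd]; ring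
    rw [this, Complex.norm_conj]
  set P : ℕ → ℝ := fun N => ∑ k ∈ Finset.range N, ‖cn k‖ ^ 2 with hP
  have hPsucc : ∀ n, ∑ k ∈ Finset.range n, ‖cn (k + 1)‖ ^ 2 = P (n + 1) - 1 := by
    intro n
    simp only [hP]
    rw [Finset.sum_range_succ', hcn0]
    simp
  have hcv : Continuous (fun θ => vv ρ A x y (ww θ)) := continuous_vv h0 h1 hs hA x y
  -- main estimate for each `n`
  have hmain : ∀ n : ℕ, K * ((1 + P (n + 1)) / 2) ≤ F * ((1 + P (n + 1)) / 2 + (1 + S) / 2) := by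
    intro n
    have hTn := (Tn_spec h0 h1 d n).2
    simp only [hnorm2d] at hTn
    rw [hPsucc] at hTn
    have hin : ⟪x, (aeval A (bb ρ d n)) x⟫_ℂ = (((1 + P (n + 1)) / 2 : ℝ) : ℂ) := by
      have e1 : ⟪x, (aeval A (bb ρ d n)) x⟫_ℂ
          = 1 + ∑ k ∈ Finset.range n, d (k + 1) * cn (k + 1) := by
        simp only [bb, map_add, map_one, map_sum, map_mul, aeval_C, _root_.add_apply,
          one_apply_eq_self, inner_add_right, huu x hx]
        congr 1
        rw [_root_.sum_apply, inner_sum]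
        refine Finset.sum_congr rfl fun k _ => ?_
        rw [hcnk (k + 1) (by omega)]
        simp [Algebra.algebraMap_eq_smul_one, inner_smul_right]
      have e2 : ∀ k, d (k + 1) * cn (k + 1) = ((‖cn (k + 1)‖ ^ 2 / 2 : ℝ) : ℂ) := by
        intro k
        simp only [hd]
        have := Complex.normSq_eq_norm_sq (cn (k + 1))
        have h5 : conj (cn (k + 1)) * cn (k + 1) = ((‖cn (k + 1)‖ ^ 2 : ℝ) : ℂ) := by
          rw [mul_comm, Complex.mul_conj, this]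
        push_cast at h5 ⊢
        linear_combination (1 / 2 : ℂ) * h5
      rw [e1]
      simp only [e2]
      rw [← Complex.ofReal_sum, ← Finset.sum_div, hPsucc]
      push_cast
      ring
    have hkey : ⟪y, (aeval A (f * bb ρ d n)) x⟫_ℂ = (K * ((1 + P (n + 1)) / 2) : ℝ) := by
      rw [map_mul]
      show ⟪y, (aeval A f) ((aeval A (bb ρ d n)) x)⟫_ℂ = _
      rw [hT1, hin]
      push_cast
      ring
    have hav := avg_poly h0 h1 hs hA x y (f * bb ρ d n)
    rw [hkey] at hav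
    have hcT := continuous_Tn ρ d n
    have hfc : Continuous (fun θ => f.eval (sig ρ θ)) := f.continuous.comp (continuous_sig ρ)
    have hbound : K * ((1 + P (n + 1)) / 2) ≤ F * (mean (fun θ => ‖Tn ρ d n θ‖ ^ 2)
        + (1 / 4) * mean (fun θ => ‖vv ρ A x y (ww θ)‖ ^ 2)) := by
      have h3 := norm_avg_le (fun θ => (f * bb ρ d n).eval (sig ρ θ) * vv ρ A x y (ww θ))
      rw [hav, Complex.norm_real, Real.norm_of_nonneg (by
        have : 0 ≤ P (n + 1) := Finset.sum_nonneg (fun _ _ => by positivity)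
        positivity)] at h3
      refine h3.trans ?_
      have c1 : Continuous (fun θ => ‖(f * bb ρ d n).eval (sig ρ θ) * vv ρ A x y (ww θ)‖) :=
        (((f * bb ρ d n).continuous.comp (continuous_sig ρ)).mul hcv).norm
      have c2 : Continuous (fun θ => ‖Tn ρ d n θ‖ ^ 2) := hcT.norm.pow 2
      have c3 : Continuous (fun θ => ‖vv ρ A x y (ww θ)‖ ^ 2) := hcv.norm.pow 2
      have c4 : Continuous (fun θ => (1 / 4 : ℝ) * ‖vv ρ A x y (ww θ)‖ ^ 2) :=
        continuous_const.mul c3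
      have c5 : Continuous (fun θ => F * (‖Tn ρ d n θ‖ ^ 2 + (1 / 4) * ‖vv ρ A x y (ww θ)‖ ^ 2)) :=
        continuous_const.mul (c2.add c4)
      have : mean (fun θ => ‖(f * bb ρ d n).eval (sig ρ θ) * vv ρ A x y (ww θ)‖)
          ≤ mean (fun θ => F * (‖Tn ρ d n θ‖ ^ 2 + (1 / 4) * ‖vv ρ A x y (ww θ)‖ ^ 2)) := by
        apply mean_le_mean c1 c5
        intro θ
        rw [eval_mul, eval_bb, norm_mul, norm_mul, mul_assoc]
        have h6 := hF θ
        have h7 : ‖Tn ρ d n θ‖ * ‖vv ρ A x y (ww θ)‖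
            ≤ ‖Tn ρ d n θ‖ ^ 2 + (1 / 4) * ‖vv ρ A x y (ww θ)‖ ^ 2 := by
          nlinarith [sq_nonneg (‖Tn ρ d n θ‖ - (1 / 2) * ‖vv ρ A x y (ww θ)‖)]
        calc ‖f.eval (sig ρ θ)‖ * (‖Tn ρ d n θ‖ * ‖vv ρ A x y (ww θ)‖)
            ≤ F * (‖Tn ρ d n θ‖ * ‖vv ρ A x y (ww θ)‖) :=
              mul_le_mul_of_nonneg_right h6 (by positivity)
          _ ≤ _ := mul_le_mul_of_nonneg_left h7 hF0
      refine this.trans (le_of_eq ?_)
      rw [mean_const_mul, mean_add c2 c4, mean_const_mul]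
    refine hbound.trans (mul_le_mul_of_nonneg_left ?_ hF0)
    have e1 : mean (fun θ => ‖Tn ρ d n θ‖ ^ 2) ≤ (1 + P (n + 1)) / 2 := by
      refine hTn.trans (le_of_eq ?_)
      ring
    linarith
  -- pass to the limit
  have hlim : Filter.Tendsto (fun n : ℕ => P (n + 1)) Filter.atTop (nhds S) :=
    (Filter.tendsto_add_atTop_iff_nat 1).mpr hPx.tendsto_sum_nat
  have hl1 : Filter.Tendsto (fun n : ℕ => K * ((1 + P (n + 1)) / 2)) Filter.atTop
      (nhds (K * ((1 + S) / 2))) :=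
    ((hlim.const_add 1).div_const 2).const_mul K
  have hl2 : Filter.Tendsto (fun n : ℕ => F * ((1 + P (n + 1)) / 2 + (1 + S) / 2)) Filter.atTop
      (nhds (F * ((1 + S) / 2 + (1 + S) / 2))) :=
    (((hlim.const_add 1).div_const 2).add_const _).const_mul F
  have hfin := le_of_tendsto_of_tendsto' hl1 hl2 hmain
  have hS1 : 0 < (1 + S) / 2 := by linarith
  have : K * ((1 + S) / 2) ≤ (2 * F) * ((1 + S) / 2) := by
    nlinarith
  exact le_of_mul_le_mul_right this hS1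

end

end Vale.Agent.Lib.P123E
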